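import Vale.Agent.P273.H228.Loop
import Vale.Agent.P273.H67.ChooseB
import Vale.Agent.P273.H728.ExtOf

/-!
P273, the graph and the positions at the last stage are those of `H728.ExtOf`.
-/

noncomputable section

namespace Vale.Agent.P273.H228

open Sum Finset H93 H183 H837 H728

variable {T : RB} {m' : ℕ}

/-- The label of a vertex. -/
def nmV (f : Fin 3 → ℕ) : VC f → Bool ⊕ (Fin 3 × ℕ) := Sum.map id Subtype.val

/-- The neck and the number of an edge. -/
def geE (f : Fin 3 → ℕ) : EC f → Fin 3 × ℕ := Subtype.val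

theorem nmV_inj (f : Fin 3 → ℕ) : Function.Injective (nmV f) :=
  Sum.map_injective.2 ⟨Function.injective_id, Subtype.val_injective⟩

theorem fin_succ (k : Fin 3) : fin T k + 1 = (T.B k).card := by
  have h1 := card_pos T k
  unfold fin
  omega

theorem nmV_cp {k : Fin 3} {r : ℕ} (h : r ≤ fin T k + 1) :
    nmV (fin T) (cp (fin T) k r) = lb T k r := by
  have h1 := fin_succ (T := T) k
  unfold lb
  rcases Nat.eq_zero_or_pos r with rfl | h0
  · rw [cp_zero, if_pos rfl]; rfl
  · rw [if_neg (by omega)]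
    by_cases h2 : r = (T.B k).card
    · rw [if_pos h2, cp_last (by omega)]; rfl
    · rw [if_neg h2, cp_of h0 (by omega)]; rfl

/-- The vertex of a label at the last stage is its component. -/
theorem nmV_vS (x : Mk) : nmV (fin T) (vS T (fin T) x) = T.comp x := by
  unfold vS
  rcases h : T.comp x with b | ⟨k, r⟩
  · rfl
  · obtain ⟨-, h2, h3, h4⟩ := RB.comp_eq_inr.1 h
    have h5 : T.cnt k (T.rk x) ≤ (T.B k).card := Finset.card_le_card (filter_subset _ _)
    have h6 := fin_succ (T := T) k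
    rw [loc_inr (by omega), nmV_cp (by omega)]
    unfold lb
    rw [if_neg (by omega), if_neg h4]

/-- **The graph at the last stage is the graph of `T`.** -/
theorem lab_fin : Lab T (Sum.elim (he (fin T)) (vS T (fin T))) (nmV (fin T)) (geE (fin T)) where
  nm_inj := nmV_inj _
  ge_inj := Subtype.val_injective
  ge_ran k i := by
    have h1 := fin_succ (T := T) k
    constructor
    · rintro ⟨⟨x, hx⟩, rfl⟩
      have hx' : i ≤ fin T k := hx
      omega
    · intro h
      exact ⟨⟨(k, i), by change i ≤ fin T k; omega⟩, rfl⟩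
  edge e s := by
    obtain ⟨⟨k, i⟩, hi⟩ := e
    have hi' : i ≤ fin T k := hi
    cases s
    · exact nmV_cp (T := T) (k := k) (r := i + 1) (by omega)
    · exact nmV_cp (T := T) (k := k) (r := i) (by omega)
  leg x := nmV_vS x

/-- The centres of the necks. -/
def ctrP (k : Fin 3) : (Fin m' → ℂ) → OnePoint ℂ := fun _ => ((H95.ctr k : ℂ) : OnePoint ℂ)

/-- The positions of the half-edges. -/
theorem hz_fin (y : EC (fin T) × Bool) (b : Fin m' → ℂ) :
    hz T (geE (fin T) y.1).1 (geE (fin T) y.1).2 y.2 = zE (fin T) ctrP y b := by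
  obtain ⟨⟨⟨k, i⟩, hi⟩, s⟩ := y
  have h1 := fin_succ (T := T) k
  cases s
  · rw [zE_false]
    change (if i + 1 = (T.B k).card then ((H95.ctr k : ℂ) : OnePoint ℂ) else OnePoint.infty) =
      (if i = fin T k then ctrP k else fun _ => OnePoint.infty) b
    by_cases h : i = fin T k
    · rw [if_pos (by omega), if_pos h]; rfl
    · rw [if_neg (by omega), if_neg h]
  · rw [zE_true]
    change (if i = 0 then ((H95.ctr k : ℂ) : OnePoint ℂ) else ((0 : ℂ) : OnePoint ℂ)) =
      (if i = 0 then ctrP k else fun _ => ((0 : ℂ) : OnePoint ℂ)) b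
    by_cases h : i = 0
    · rw [if_pos h, if_pos h]; rfl
    · rw [if_neg h, if_neg h]

/-- The positions at the last stage. -/
theorem zz_fin (S : Mk → Bool) (φ : (Fin m' → ℂ) → (rg T).Sp) (b : Fin m' → ℂ)
    (y : (EC (fin T) × Bool) ⊕ Mk) :
    zz T S (geE (fin T)) (φ b) y =
      Sum.elim (zE (fin T) ctrP) (fun x b => mz T S (φ b) x) y b := by
  rcases y with y | x
  · exact hz_fin y b
  · rfl

/-- **The positions of the marks on the free components.** -/
theorem mz_free (S : Mk → Bool) (p : (rg T).Sp) {x : Mk} {k : Fin 3} {r : ℕ}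
    (h : T.comp x = inr (k, r)) : mz T S p x = ((gpr T (H67.tau p) k (T.rk x) : ℂ) : OnePoint ℂ) := by
  have h1 : mz T S p x = ((∏ g : Fin ((rg T).n k + 1),
      if (g : ℕ) ≤ T.rk x ∧ ∀ b ∈ T.B k, b ≤ T.rk x → b < (g : ℕ) then p.1 ⟨k, g⟩ else 1 : ℂ) :
      OnePoint ℂ) := by
    unfold mz
    rw [h]
  rw [h1]
  congr 1
  obtain ⟨-, h2, h3, h4⟩ := RB.comp_eq_inr.1 h
  obtain ⟨h5, h6⟩ := lg_mem (T := T) (k := k) (i := T.rk x) (by omega)
  refine H67.prod_tau p k (fun g => g ≤ T.rk x ∧ ∀ b ∈ T.B k, b ≤ T.rk x → b < g) fun g _ => ?_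
  rw [mem_Ioc]
  constructor
  · rintro ⟨h7, h8⟩
    exact ⟨h8 _ h5 h6, h7⟩
  · rintro ⟨h7, h8⟩
    refine ⟨h8, fun b hb hb' => lt_of_le_of_lt ?_ h7⟩
    exact Finset.le_sup (f := id) (mem_filter.2 ⟨hb, hb'⟩)

end Vale.Agent.P273.H228

end
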