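import Vale.Agent.P273.H228.Lab
import Vale.Agent.P273.H591.Next
import Vale.Agent.P273.H951.QRe
import Vale.Agent.P273.H599.End

/-!
P273, the insertion of all free components: from the invariant `QS` over the start family (`f = 0`)
to the invariant over the graph of the region with gaps.
-/

noncomputable section

namespace Vale.Agent.P273.H228

open Sum Finset H93 H183 H837 H395 H948 H591

variable {m m' : ℕ}

/-- The labels at the last node of the neck `k`. -/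
def atS (T : RB) (f : Fin 3 → ℕ) (k : Fin 3) : Set Mk := {x | AtN f k (T.comp x)}

/-- The vertex of a label. -/
def vS (T : RB) (f : Fin 3 → ℕ) (x : Mk) : VC f := loc f (T.comp x)

/-- The first coordinate of a label at the last node. -/
def uS (T : RB) (τ : (Fin m → ℂ) → Fin 3 → ℕ → ℂ) (f : Fin 3 → ℕ) (k : Fin 3) (x : Mk)
    (b : Fin m → ℂ) : ℂ := uP T (τ b) k (f k) (T.rk x)

/-- The second coordinate of a label at the last node. -/
def wS (T : RB) (τ : (Fin m → ℂ) → Fin 3 → ℕ → ℂ) (k : Fin 3) (x : Mk) (b : Fin m → ℂ) : ℂ :=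
  vP T (τ b) k (T.rk x)

/-- The gaps `τ` on the base `B` and the parameters `U` of the stratum: the products of consecutive
gaps are small if they contain a gap of `B`, and not small otherwise. -/
structure Bas (T : RB) (τ : (Fin m → ℂ) → Fin 3 → ℕ → ℂ) (B : Set (Fin m → ℂ))
    (U : Set (Fin m' → ℂ)) (φ : (Fin m' → ℂ) → Fin m → ℂ) (X₀ : Surf m)
    (P : Mk → (Fin m → ℂ) → X₀.X) (ε : ℝ) : Prop where
  pos : 0 < ε
  an : ∀ b ∈ B, ∀ k g, AnalyticAt ℂ (fun b => τ b k g) b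
  lg : ∀ b ∈ B, ∀ k i j, (∀ g ∈ T.B k, ¬ (i ≤ g ∧ g < j)) → ε < ‖∏ g ∈ Ico i j, τ b k g‖
  sm : ∀ b ∈ B, ∀ k i j, (∃ g ∈ T.B k, i ≤ g ∧ g < j) → ‖∏ g ∈ Ico i j, τ b k g‖ < ε
  zero : ∀ b ∈ U, ∀ k, ∀ g ∈ T.B k, τ (φ b) k g = 0
  node : ∀ b ∈ B, ∀ k x, T.pl x = inl k → uP T (τ b) k 0 (T.rk x) = 0 →
    vP T (τ b) k (T.rk x) = 0 → ¬ X₀.SmoothAt (P x b)
  opn : IsOpen U
  ne : U.Nonempty
  anφ : ∀ b ∈ U, AnalyticAt ℂ φ b

/-- The invariant at the stage `f`. -/
def Inv (T : RB) (τ : (Fin m → ℂ) → Fin 3 → ℕ → ℂ) (B : Set (Fin m → ℂ))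
    (U : Set (Fin m' → ℂ)) (φ : (Fin m' → ℂ) → Fin m → ℂ) (X₀ : Surf m)
    (P : Mk → (Fin m → ℂ) → X₀.X) (ctr : Fin 3 → (Fin m' → ℂ) → OnePoint ℂ)
    (pos : Mk → (Fin m' → ℂ) → OnePoint ℂ) (f : Fin 3 → ℕ) : Prop :=
  ∃ (σ : State X₀ P ∅) (g : VC f → OnePoint ℂ → (Fin m' → ℂ) → σ.F.S.X)
    (Uc : Fin 3 → Set σ.F.S.X) (u v : Fin 3 → σ.F.S.X → ℂ) (t : Fin 3 → (Fin m → ℂ) → ℂ),
    σ.F.B = B ∧ Stb σ ∧
    QS σ U φ (he f) (zE f ctr) g (lastE f) (atS T f) (vS T f) pos Uc u v t (uS T τ f) (wS T τ)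

/-! ### The graph, for any decidable equality -/

theorem cut_hI' {f f' : Fin 3 → ℕ} {k : Fin 3} (hf : f' = ins f k) (inst : DecidableEq (EC f))
    (y : EC f' × Bool) :
    cutV hf (he f' y) = @H395.hI _ _ inst (he f) (lastE f k) (cutE hf y.1, y.2) := by
  obtain rfl : inst = fun a b => Subtype.instDecidableEq a b := Subsingleton.elim _ _
  exact cut_hI hf y

theorem cut_zI' {f f' : Fin 3 → ℕ} {k : Fin 3} {ctr : Fin 3 → (Fin m' → ℂ) → OnePoint ℂ}
    (hf : f' = ins f k) (inst : DecidableEq (EC f)) (y : EC f' × Bool) :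
    zE f' ctr y = @H395.zI _ _ inst (zE f ctr) (lastE f k) (cutE hf y.1, y.2) := by
  obtain rfl : inst = fun a b => Subtype.instDecidableEq a b := Subsingleton.elim _ _
  exact cut_zI hf y

/-! ### The loop -/

variable {T : RB} {τ : (Fin m → ℂ) → Fin 3 → ℕ → ℂ} {B : Set (Fin m → ℂ)}
    {U : Set (Fin m' → ℂ)} {φ : (Fin m' → ℂ) → Fin m → ℂ} {X₀ : Surf m}
    {P : Mk → (Fin m → ℂ) → X₀.X} {ε : ℝ} {ctr : Fin 3 → (Fin m' → ℂ) → OnePoint ℂ}
    {pos : Mk → (Fin m' → ℂ) → OnePoint ℂ} {f : Fin 3 → ℕ} {k : Fin 3}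

theorem prod_an {s : Finset ℕ} {b : Fin m → ℂ}
    (h : ∀ k g, AnalyticAt ℂ (fun b => τ b k g) b) :
    AnalyticAt ℂ (fun b => ∏ g ∈ s, τ b k g) b :=
  Finset.analyticAt_fun_prod s fun g _ => h k g

open Classical in
/-- **One more free component.** -/
theorem Inv.step (hb : Bas T τ B U φ X₀ P ε)
    (hpos : ∀ x k r, T.comp x = inr (k, r) → ∀ b ∈ U,
      pos x b = ((gpr T (τ (φ b)) k (T.rk x) : ℂ) : OnePoint ℂ))
    (hk : f k + 1 < (T.B k).card) (I : Inv T τ B U φ X₀ P ctr pos f) :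
    Inv T τ B U φ X₀ P ctr pos (ins f k) := by
  obtain ⟨σ, g, Uc, u, v, t, rfl, hS, Q⟩ := I
  obtain ⟨x₀, hx₀, hr₀⟩ := exists_mark hk
  have hj₀ : x₀ ∈ atS T f k := atN_mark hk hx₀ hr₀
  have hle : ∀ x ∈ atS T f k, beta T k (f k + 1) ≤ T.rk x := fun x hx => beta_le hx
  obtain ⟨σ', hB', g', Uc', u', v', t', Q', hst⟩ := Q.next hb.opn hb.ne hb.anφ k x₀ hj₀
    (by
      intro b hbB h0 h1 hsm _
      refine hb.node b hbB k x₀ hx₀ ?_ h1 (hsm x₀)
      have h2 : uP T (τ b) k (f k) (T.rk x₀) = 0 := h0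
      -- the product from the start contains the last factors
      unfold uP at h2 ⊢
      rw [prod_eq_zero_iff] at h2 ⊢
      obtain ⟨g, hg, hg'⟩ := h2
      refine ⟨g, ?_, hg'⟩
      rw [mem_Ico] at hg ⊢
      exact ⟨Nat.zero_le _, hg.2⟩)
    (fun x b => uP T (τ b) k (f k + 1) (T.rk x))
    (by
      intro x hx b hbB
      refine ⟨prod_an (hb.an b hbB), ?_, ?_⟩
      · change uP T (τ b) k (f k) (T.rk x) = uP T (τ b) k (f k) (T.rk x₀) * _
        rw [hr₀]
        exact uP_eq hk.le (hle x hx)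
      · change _ * vP T (τ b) k (T.rk x) = vP T (τ b) k (T.rk x₀)
        rw [hr₀]
        exact vP_eq (hle x hx) (rk_le hx))
    (by
      intro b _
      rw [hr₀, uP_beta])
    hb.pos (atS T (ins f k) k)
    (by
      intro x hx
      have hx' : x ∈ atS T f k := atN_mono rfl hx
      refine ⟨hx', fun b hbB => ?_, fun b hbU => ?_⟩
      · exact hb.sm b hbB k _ _ (gap_of_atN rfl hx)
      · obtain ⟨g, hg, h1, h2⟩ := gap_of_atN rfl hx
        exact prod_eq_zero (mem_Ico.2 ⟨h1, h2⟩) (hb.zero b hbU k g hg))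
    (by
      intro x hx hx' b hbB
      exact hb.lg b hbB k _ _ (no_gap rfl hx hx'))
  refine ⟨σ', fun v w b => g' (cutV rfl v) w b, Uc', u', v', t', hB', hst hS, ?_⟩
  refine H951.QS.reindex Q' (cutV (f' := ins f k) rfl) (cutE (f' := ins f k) rfl)
    (fun y => cut_hI' rfl _ y) (fun y b _ => by rw [← cut_zI' rfl]) (fun k' => ?_) (fun k' => ?_)
    (fun x hx => ?_) (fun x hx b hbU => ?_) (fun k' x hx b _ => ?_) (fun k' x _ b _ => rfl)
  · rw [cutE_last]
    by_cases h : k' = k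
    · rw [if_pos h, if_pos h]
    · rw [if_neg h, if_neg h]
  · by_cases h : k' = k
    · rw [if_pos h, h]
    · rw [if_neg h]
      ext x
      exact atN_of_ne rfl h
  · change cutV rfl (loc (ins f k) (T.comp x)) = _
    rw [cut_loc]
    by_cases h : AtN f k (T.comp x)
    · rw [if_pos h]; exact (if_pos (c := x ∈ atS T f k) h).symm
    · rw [if_neg h]; exact (if_neg (c := x ∈ atS T f k) h).symm
  · by_cases h : x ∈ atS T f k
    · rw [if_pos h]
      have h' : ¬ AtN (ins f k) k (T.comp x) := hx k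
      rw [hpos x k _ (comp_of_leave rfl h h') b hbU, gpr_leave rfl h h']
    · rw [if_neg h]
  · by_cases h : k' = k
    · subst h
      rw [if_pos rfl]
      change uP T (τ b) k' (ins f k' k') (T.rk x) = _
      rw [ins_self]
    · rw [if_neg h]
      change uP T (τ b) k' (ins f k k') (T.rk x) = uP T (τ b) k' (f k') (T.rk x)
      rw [ins_of_ne h]

/-- The last stage. -/
def fin (T : RB) (k : Fin 3) : ℕ := (T.B k).card - 1

/-- **The loop.** -/
theorem Inv.loop (hb : Bas T τ B U φ X₀ P ε)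
    (hpos : ∀ x k r, T.comp x = inr (k, r) → ∀ b ∈ U,
      pos x b = ((gpr T (τ (φ b)) k (T.rk x) : ℂ) : OnePoint ℂ)) :
    ∀ (n : ℕ) (f : Fin 3 → ℕ), (∀ k, f k ≤ fin T k) → ∑ k, (fin T k - f k) = n →
      Inv T τ B U φ X₀ P ctr pos f → Inv T τ B U φ X₀ P ctr pos (fin T) := by
  intro n
  induction n with
  | zero =>
    intro f hf hn I
    have : f = fin T := by
      funext k
      have h1 := (Finset.sum_eq_zero_iff.1 hn) k (mem_univ _)
      have h2 := hf k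
      omega
    rw [← this]; exact I
  | succ n ih =>
    intro f hf hn I
    obtain ⟨k, hk⟩ : ∃ k, f k < fin T k := by
      by_contra h
      push Not at h
      have : ∑ k, (fin T k - f k) = 0 := by
        refine Finset.sum_eq_zero fun k _ => ?_
        have := h k
        omega
      omega
    have hk' : f k + 1 < (T.B k).card := by
      have h1 : fin T k = (T.B k).card - 1 := rfl
      omega
    refine ih (ins f k) (fun k' => ?_) ?_ (I.step hb hpos hk')
    · by_cases h : k' = k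
      · subst h; rw [ins_self]; omega
      · rw [ins_of_ne h]; exact hf k'
    · have h1 : ∑ k', (fin T k' - f k') = ∑ k', (fin T k' - ins f k k') + 1 := by
        rw [← Finset.add_sum_erase _ _ (mem_univ k), ← Finset.add_sum_erase _ _ (mem_univ k),
          ins_self]
        have h2 : ∑ x ∈ univ.erase k, (fin T x - f x) = ∑ x ∈ univ.erase k, (fin T x - ins f k x) :=
          Finset.sum_congr rfl fun x hx => by rw [ins_of_ne (Finset.ne_of_mem_erase hx)]
        rw [h2]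
        omega
      omega

/-- **From the start to the end.** -/
theorem end_of_start (hb : Bas T τ B U φ X₀ P ε)
    (hpos : ∀ x k r, T.comp x = inr (k, r) → ∀ b ∈ U,
      pos x b = ((gpr T (τ (φ b)) k (T.rk x) : ℂ) : OnePoint ℂ))
    (I : Inv T τ B U φ X₀ P ctr pos fun _ => 0) {c : Fin m' → ℂ} (hc : c ∈ U)
    (hd : ∀ i j, vS T (fin T) i = vS T (fin T) j → pos i c = pos j c → i = j)
    (hn : ∀ j y, vS T (fin T) j = he (fin T) y → pos j c ≠ zE (fin T) ctr y c) :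
    ∃ B₀ ∈ nhds (φ c), ∀ (B' : Set (Fin m → ℂ)) (_ : IsOpen B') (_ : B' ⊆ B), B' ⊆ B₀ →
      φ c ∈ B' → ∃ (τ' : State X₀ P Set.univ)
        (g' : VC (fin T) → OnePoint ℂ → (Fin m' → ℂ) → τ'.F.S.X),
        τ'.F.B = B' ∧ (H949.toFam τ'.F τ'.s).IsStable ∧ IsOpen (U ∩ φ ⁻¹' B') ∧
        NormL τ'.F.S τ'.F.B τ'.s (U ∩ φ ⁻¹' B') φ (Sum.elim (he (fin T)) (vS T (fin T)))
          (Sum.elim (zE (fin T) ctr) pos) g' := by
  obtain ⟨σ, g, Uc, u, v, t, rfl, hS, Q⟩ :=
    Inv.loop hb hpos _ (fun _ => 0) (fun k => Nat.zero_le _) rfl I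
  exact H599.QS_end Q (fun k x => not_atN_end fun _ => rfl) hb.opn hb.anφ hc hd hn hS

end Vale.Agent.P273.H228

end
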