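import Vale.Agent.P273.H93.Reg

/-!
P273, the graph of a word: two cores joined by three chains. The chain `k` has `f k` free components;
they are numbered from `1` to `f k`, the component `0` is the core `false` (the vertex `none` of the
theta graph) and the component `f k + 1` is the core `true` (the vertex `some 6`).
-/

namespace Vale.Agent.P273.H228

open Sum H93

/-- The vertices: the two cores and the free components `(k, r)`, `1 ≤ r ≤ f k`. -/
abbrev VC (f : Fin 3 → ℕ) : Type := Bool ⊕ {x : Fin 3 × ℕ // 1 ≤ x.2 ∧ x.2 ≤ f x.1}

/-- The edges: `(k, i)`, `i ≤ f k`, joins the components `i` and `i + 1` of the chain `k`. -/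
abbrev EC (f : Fin 3 → ℕ) : Type := {x : Fin 3 × ℕ // x.2 ≤ f x.1}

/-- The vertex with a given label (the labels are those of `H93.RB.comp`). -/
def toV (f : Fin 3 → ℕ) : Bool ⊕ (Fin 3 × ℕ) → VC f
  | inl b => inl b
  | inr x => if h : 1 ≤ x.2 ∧ x.2 ≤ f x.1 then inr ⟨x, h⟩ else inl true

/-- The component number `r` of the chain `k`. -/
def cp (f : Fin 3 → ℕ) (k : Fin 3) (r : ℕ) : VC f := if r = 0 then inl false else toV f (inr (k, r))

/-- The half-edges: the side `true` of the edge `(k, i)` is at the component `i`, the side `false` at
the component `i + 1`. -/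
def he (f : Fin 3 → ℕ) (y : EC f × Bool) : VC f :=
  cp f y.1.1.1 (if y.2 = true then y.1.1.2 else y.1.1.2 + 1)

/-- The graph with the legs `lab`. -/
def gr {L : Type} (f : Fin 3 → ℕ) (lab : L → VC f) : (EC f × Bool) ⊕ L → VC f :=
  Sum.elim (he f) lab

/-- The last edge of the chain `k`. -/
def lastE (f : Fin 3 → ℕ) (k : Fin 3) : EC f := ⟨(k, f k), le_rfl⟩

/-- The numbers of free components after the insertion of the first `j k` marks of the neck `k`,
for each `k`. -/
def fr (T : RB) (j : Fin 3 → ℕ) (k : Fin 3) : ℕ :=
  min (((T.B k).filter (· < j k)).card) ((T.B k).card - 1)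

/-- The graph at the stage `j`; `l` is the list of the inserted marks. -/
def stG {L : Type} (T : RB) (j : Fin 3 → ℕ) (l : L → Mk) :
    (EC (fr T j) × Bool) ⊕ L → VC (fr T j) :=
  gr (fr T j) fun x => toV (fr T j) (T.comp (l x))

/-- The graph with a new leg at the vertex `v`. -/
def addL {V E L : Type} (h : (E × Bool) ⊕ L → V) (v : V) : (E × Bool) ⊕ Option L → V
  | inl y => h (inl y)
  | inr none => v
  | inr (some x) => h (inr x)

/-- The edge `e` is cut: the new vertex is `none`, with the new leg `none`. The edge `some e` keeps
its side `s`, and its side `!s` is at the new vertex; the new edge `none` has the side `s` at the new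
vertex, and its side `!s` is where the side `!s` of `e` was. -/
def cutG {V E L : Type} [DecidableEq E] (h : (E × Bool) ⊕ L → V) (e : E) (s : Bool) :
    (Option E × Bool) ⊕ Option L → Option V
  | inl (some e', t) => if e' = e ∧ t = !s then none else some (h (inl (e', t)))
  | inl (none, t) => if t = s then none else some (h (inl (e, !s)))
  | inr none => none
  | inr (some x) => some (h (inr x))

end Vale.Agent.P273.H228
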