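import Vale.Agent.P273.H228.Pos

/-!
P273, the labels of the necks at the stage `f` (`f k` free components are inserted on the neck `k`):
the products of gaps which are their coordinates at the last node of the neck, and their change when
one more component is inserted.
-/

noncomputable section

namespace Vale.Agent.P273.H228

open Sum Finset H93

variable {T : RB} {f f' : Fin 3 → ℕ} {k : Fin 3} {x : Mk} {r i : ℕ} {τ : Fin 3 → ℕ → ℂ}

/-! ### The elements of `B` -/

theorem cnt_pos_iff {b : ℕ} (h : b ∈ T.B k) : 1 ≤ T.cnt k b ∧ T.cnt k b ≤ (T.B k).card :=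
  ⟨RB.cnt_pos h le_rfl, Finset.card_le_card (filter_subset _ _)⟩

theorem cnt_inj {b c : ℕ} (hb : b ∈ T.B k) (hc : c ∈ T.B k) (h : T.cnt k b = T.cnt k c) :
    b = c := by
  rcases lt_trichotomy b c with h1 | h1 | h1
  · have := RB.cnt_lt (T := T) hc h1 le_rfl
    omega
  · exact h1
  · have := RB.cnt_lt (T := T) hb h1 le_rfl
    omega

theorem exists_beta (h1 : 1 ≤ r) (h2 : r ≤ (T.B k).card) : ∃ b ∈ T.B k, T.cnt k b = r := by
  have h3 : (T.B k).image (T.cnt k) = Icc 1 (T.B k).card := by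
    refine Finset.eq_of_subset_of_card_le (fun c hc => ?_) ?_
    · obtain ⟨b, hb, rfl⟩ := mem_image.1 hc
      exact mem_Icc.2 (cnt_pos_iff hb)
    · rw [Nat.card_Icc, card_image_of_injOn]
      · omega
      · intro b hb c hc h
        exact cnt_inj hb hc h
  have h4 : r ∈ (T.B k).image (T.cnt k) := by rw [h3]; exact mem_Icc.2 ⟨h1, h2⟩
  obtain ⟨b, hb, e⟩ := mem_image.1 h4
  exact ⟨b, hb, e⟩

open Classical in
/-- The element number `r` of `B k`, counted from `1`. -/
def beta (T : RB) (k : Fin 3) (r : ℕ) : ℕ :=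
  if h : ∃ b ∈ T.B k, T.cnt k b = r then h.choose else 0

theorem beta_spec (h1 : 1 ≤ r) (h2 : r ≤ (T.B k).card) :
    beta T k r ∈ T.B k ∧ T.cnt k (beta T k r) = r := by
  have h := exists_beta (T := T) (k := k) h1 h2
  unfold beta
  rw [dif_pos h]
  exact h.choose_spec

theorem beta_eq {b : ℕ} (hb : b ∈ T.B k) : beta T k (T.cnt k b) = b := by
  obtain ⟨h1, h2⟩ := beta_spec (T := T) (k := k) (cnt_pos_iff hb).1 (cnt_pos_iff hb).2
  exact cnt_inj h1 hb h2

/-- The first gap that counts at the stage `r`. -/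
def sta (T : RB) (k : Fin 3) (r : ℕ) : ℕ := if r = 0 then 0 else beta T k r + 1

theorem sta_zero : sta T k 0 = 0 := rfl

theorem sta_succ : sta T k (r + 1) = beta T k (r + 1) + 1 := rfl

theorem le_of_cnt {b : ℕ} (hb : b ∈ T.B k) (h : T.cnt k b ≤ T.cnt k i) : b ≤ i := by
  by_contra h1
  have := RB.cnt_lt (T := T) hb (not_le.1 h1) le_rfl
  omega

theorem sta_le (h : r + 1 ≤ (T.B k).card) : sta T k r ≤ beta T k (r + 1) := by
  obtain ⟨h1, h2⟩ := beta_spec (T := T) (k := k) (Nat.le_add_left 1 r) h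
  rcases Nat.eq_zero_or_pos r with rfl | h3
  · exact Nat.zero_le _
  · obtain ⟨h4, h5⟩ := beta_spec (T := T) (k := k) h3 (by omega)
    unfold sta
    rw [if_neg (by omega)]
    have h6 : beta T k r ≤ beta T k (r + 1) := le_of_cnt h4 (by omega)
    have h7 : beta T k r ≠ beta T k (r + 1) := fun h => by rw [h] at h5; omega
    omega

theorem beta_lt_n (h : r + 1 < (T.B k).card) : beta T k (r + 1) < T.n k := by
  obtain ⟨h1, h2⟩ := beta_spec (T := T) (k := k) (Nat.le_add_left 1 r) h.le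
  obtain ⟨h3, h4⟩ := beta_spec (T := T) (k := k) (Nat.le_add_left 1 (r + 1)) h
  have h5 : beta T k (r + 1 + 1) ≤ T.n k := T.sub k _ h3
  have h6 : ¬ beta T k (r + 1 + 1) ≤ beta T k (r + 1) := fun h6 => by
    have := RB.cnt_mono (T := T) (k := k) h6
    omega
  omega

/-- The mark just after the gap number `r + 1`. -/
theorem exists_mark (h : r + 1 < (T.B k).card) : ∃ x, T.pl x = inl k ∧ T.rk x = beta T k (r + 1) :=
  T.exists_rk (beta_lt_n h)

/-! ### The products -/

/-- The product of the gaps between the last node and the mark of rank `i`. -/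
def uP (T : RB) (τ : Fin 3 → ℕ → ℂ) (k : Fin 3) (r i : ℕ) : ℂ := ∏ g ∈ Ico (sta T k r) (i + 1), τ k g

/-- The product of the gaps after the mark of rank `i`. -/
def vP (T : RB) (τ : Fin 3 → ℕ → ℂ) (k : Fin 3) (i : ℕ) : ℂ := ∏ g ∈ Ico (i + 1) (T.n k + 1), τ k g

theorem uP_succ : uP T τ k (r + 1) i = ∏ g ∈ Ioc (beta T k (r + 1)) i, τ k g := by
  unfold uP
  rw [sta_succ]
  congr 1
  ext g
  simp only [mem_Ico, mem_Ioc]
  omega

/-- `u = τ₀ μ`. -/
theorem uP_eq (h : r + 1 ≤ (T.B k).card) (hi : beta T k (r + 1) ≤ i) :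
    uP T τ k r i = uP T τ k r (beta T k (r + 1)) * uP T τ k (r + 1) i := by
  unfold uP
  rw [sta_succ, prod_Ico_consecutive]
  · have := sta_le h; omega
  · omega

/-- `μ v = τ₁`. -/
theorem vP_eq (hi : beta T k (r + 1) ≤ i) (hn : i ≤ T.n k) :
    uP T τ k (r + 1) i * vP T τ k i = vP T τ k (beta T k (r + 1)) := by
  unfold uP vP
  rw [sta_succ, prod_Ico_consecutive]
  · omega
  · omega

theorem uP_beta : uP T τ k (r + 1) (beta T k (r + 1)) = 1 := by
  unfold uP
  rw [sta_succ, Ico_self, prod_empty]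

/-! ### The labels at the last node -/

theorem atN_iff_cnt : AtN f k (T.comp x) ↔
    T.pl x = inl k ∧ f k < T.cnt k (T.rk x) ∧ T.cnt k (T.rk x) < (T.B k).card := by
  have hle : T.cnt k (T.rk x) ≤ (T.B k).card := Finset.card_le_card (filter_subset _ _)
  constructor
  · rintro ⟨r, h1, h2⟩
    obtain ⟨h3, h4, h5, h6⟩ := RB.comp_eq_inr.1 h1
    exact ⟨h3, by omega, by omega⟩
  · rintro ⟨h1, h2, h3⟩
    exact ⟨T.cnt k (T.rk x), RB.comp_eq_inr.2 ⟨h1, rfl, by omega, by omega⟩, h2⟩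

/-- At the last node of only one neck. -/
theorem atN_uniq {k' : Fin 3} (h : AtN f k (T.comp x)) (h' : AtN f k' (T.comp x)) : k = k' := by
  obtain ⟨r, h1, -⟩ := h
  obtain ⟨r', h2, -⟩ := h'
  rw [h1] at h2
  simp only [inr.injEq, Prod.mk.injEq] at h2
  exact h2.1

theorem atN_of_ne (hf : f' = ins f k) {k' : Fin 3} (h : k' ≠ k) {l : Bool ⊕ (Fin 3 × ℕ)} :
    AtN f' k' l ↔ AtN f k' l := by
  have h1 : f' k' = f k' := by rw [hf, ins_of_ne h]
  unfold AtN
  rw [h1]

theorem atN_mono (hf : f' = ins f k) {l : Bool ⊕ (Fin 3 × ℕ)} (h : AtN f' k l) : AtN f k l := by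
  obtain ⟨r, h1, h2⟩ := h
  rw [hf, ins_self] at h2
  exact ⟨r, h1, by omega⟩

theorem lt_of_atN (h : AtN f k (T.comp x)) : f k + 1 < (T.B k).card := by
  obtain ⟨-, h2, h3⟩ := atN_iff_cnt.1 h
  omega

theorem beta_le (h : AtN f k (T.comp x)) : beta T k (f k + 1) ≤ T.rk x := by
  obtain ⟨-, h2, h3⟩ := atN_iff_cnt.1 h
  obtain ⟨h4, h5⟩ := beta_spec (T := T) (k := k) (Nat.le_add_left 1 (f k)) (by omega)
  exact le_of_cnt h4 (by omega)

theorem rk_le (h : AtN f k (T.comp x)) : T.rk x ≤ T.n k :=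
  (T.lt_n (atN_iff_cnt.1 h).1).le

/-- The labels that stay at the last node: there is a gap of `B` between. -/
theorem gap_of_atN (hf : f' = ins f k) (h : AtN f' k (T.comp x)) :
    ∃ g ∈ T.B k, sta T k (f k + 1) ≤ g ∧ g < T.rk x + 1 := by
  obtain ⟨-, h2, h3⟩ := atN_iff_cnt.1 h
  rw [hf, ins_self] at h2
  obtain ⟨h4, h5⟩ := beta_spec (T := T) (k := k) (r := f k + 1 + 1) (by omega) (by omega)
  refine ⟨_, h4, sta_le (by omega), ?_⟩
  have := le_of_cnt (i := T.rk x) h4 (by omega)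
  omega

/-- The labels that leave the last node: there is no gap of `B` between. -/
theorem no_gap (hf : f' = ins f k) (h : AtN f k (T.comp x)) (h' : ¬ AtN f' k (T.comp x)) :
    ∀ g ∈ T.B k, ¬ (sta T k (f k + 1) ≤ g ∧ g < T.rk x + 1) := by
  obtain ⟨h1, h2, h3⟩ := atN_iff_cnt.1 h
  rw [atN_iff_cnt, hf, ins_self] at h'
  have h4 : T.cnt k (T.rk x) = f k + 1 := by
    by_contra h4
    exact h' ⟨h1, by omega, h3⟩
  obtain ⟨h5, h6⟩ := beta_spec (T := T) (k := k) (Nat.le_add_left 1 (f k)) (by omega)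
  rintro g hg ⟨h7, h8⟩
  rw [sta_succ] at h7
  have := RB.cnt_lt (T := T) hg (show beta T k (f k + 1) < g by omega) (show g ≤ T.rk x by omega)
  omega

/-- The component of a label that leaves the last node. -/
theorem comp_of_leave (hf : f' = ins f k) (h : AtN f k (T.comp x)) (h' : ¬ AtN f' k (T.comp x)) :
    T.comp x = inr (k, f k + 1) := by
  obtain ⟨h1, h2, h3⟩ := atN_iff_cnt.1 h
  rw [atN_iff_cnt, hf, ins_self] at h'
  have h4 : T.cnt k (T.rk x) = f k + 1 := by
    by_contra h4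
    exact h' ⟨h1, by omega, h3⟩
  exact RB.comp_eq_inr.2 ⟨h1, h4, by omega, by omega⟩

/-- **The position of a label that leaves the last node.** -/
theorem gpr_leave (hf : f' = ins f k) (h : AtN f k (T.comp x)) (h' : ¬ AtN f' k (T.comp x)) :
    gpr T τ k (T.rk x) = uP T τ k (f k + 1) (T.rk x) := by
  obtain ⟨h1, h2, h3⟩ := atN_iff_cnt.1 h
  have h4 := RB.comp_eq_inr.1 (comp_of_leave hf h h')
  obtain ⟨h5, h6⟩ := beta_spec (T := T) (k := k) (Nat.le_add_left 1 (f k)) (by omega)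
  rw [uP_succ]
  exact gpr_eq h5 (beta_le h) (by omega)

/-- The first mark of the new component is at the last node before. -/
theorem atN_mark (h : f k + 1 < (T.B k).card) (hx : T.pl x = inl k)
    (hr : T.rk x = beta T k (f k + 1)) : AtN f k (T.comp x) := by
  obtain ⟨h1, h2⟩ := beta_spec (T := T) (k := k) (Nat.le_add_left 1 (f k)) h.le
  exact atN_iff_cnt.2 ⟨hx, by rw [hr]; omega, by rw [hr]; omega⟩

/-- `τ₀ = 0` where the gaps of `B` vanish. -/
theorem t0_zero (h : r + 1 ≤ (T.B k).card) (h0 : ∀ g ∈ T.B k, τ k g = 0) :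
    uP T τ k r (beta T k (r + 1)) = 0 := by
  obtain ⟨h1, -⟩ := beta_spec (T := T) (k := k) (Nat.le_add_left 1 r) h
  exact prod_eq_zero (mem_Ico.2 ⟨sta_le h, Nat.lt_succ_self _⟩) (h0 _ h1)

/-- `τ₁ = 0` where the gaps of `B` vanish. -/
theorem t1_zero (h : r + 1 < (T.B k).card) (h0 : ∀ g ∈ T.B k, τ k g = 0) :
    vP T τ k (beta T k (r + 1)) = 0 := by
  obtain ⟨h1, h2⟩ := beta_spec (T := T) (k := k) (Nat.le_add_left 1 (r + 1)) h
  refine prod_eq_zero (mem_Ico.2 ⟨?_, ?_⟩) (h0 _ h1)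
  · exact sta_le (T := T) (k := k) (r := r + 1) h
  · exact Nat.lt_succ_of_le (T.sub k _ h1)

/-- All the free components are there: no label is at a last node. -/
theorem not_atN_end (hf : ∀ k, f k = (T.B k).card - 1) : ¬ AtN f k (T.comp x) := by
  intro h
  have := lt_of_atN h
  rw [hf] at this
  omega

end Vale.Agent.P273.H228

end
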