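import Vale.Agent.P273.H228.Stage
import Vale.Agent.P273.H395.NormM3

/-!
P273, the positions of the half-edges of the stage graphs, and the positions of the marks on the free
components; their change when a projective line is inserted at the last node of a neck.
-/

noncomputable section

namespace Vale.Agent.P273.H228

open Sum Finset H93

variable {f f' : Fin 3 → ℕ} {k : Fin 3} {m' : ℕ} {ctr : Fin 3 → (Fin m' → ℂ) → OnePoint ℂ}

/-! ### Half-edges -/

/-- The positions of the half-edges: on a free component, the node towards the core `false` is at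
infinity and the node towards the core `true` is at zero; on the cores the nodes are at `ctr k`. -/
def zE (f : Fin 3 → ℕ) (ctr : Fin 3 → (Fin m' → ℂ) → OnePoint ℂ) (y : EC f × Bool) :
    (Fin m' → ℂ) → OnePoint ℂ :=
  if y.2 = true then (if y.1.1.2 = 0 then ctr y.1.1.1 else fun _ => ((0 : ℂ) : OnePoint ℂ))
  else if y.1.1.2 = f y.1.1.1 then ctr y.1.1.1 else fun _ => OnePoint.infty

theorem zE_true (e : EC f) : zE f ctr (e, true) =
    if e.1.2 = 0 then ctr e.1.1 else fun _ => ((0 : ℂ) : OnePoint ℂ) := rfl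

theorem zE_false (e : EC f) : zE f ctr (e, false) =
    if e.1.2 = f e.1.1 then ctr e.1.1 else fun _ => OnePoint.infty := rfl

theorem ins_eq (f : Fin 3 → ℕ) (k : Fin 3) : ins f k = f + Pi.single k 1 := by
  funext k'
  by_cases h : k' = k
  · subst h; simp [ins]
  · simp [ins, h]

/-- **The cut, positions of the half-edges.** -/
theorem cut_zI (hf : f' = ins f k) (y : EC f' × Bool) :
    zE f' ctr y = H395.zI (zE f ctr) (lastE f k) (cutE hf y.1, y.2) := by
  obtain ⟨⟨⟨k', i⟩, hi⟩, s⟩ := y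
  by_cases h : i ≤ f k'
  · rw [show cutE hf (⟨(k', i), hi⟩ : EC f') = some ⟨(k', i), h⟩ from cutE_of hf h]
    change _ = if (⟨(k', i), h⟩ : EC f) = lastE f k ∧ s = false then _ else zE f ctr (⟨(k', i), h⟩, s)
    cases s
    · rw [zE_false, zE_false]
      by_cases h1 : k' = k ∧ i = f k
      · obtain ⟨rfl, rfl⟩ := h1
        refine (if_neg ?_).trans (if_pos ⟨rfl, rfl⟩).symm
        change ¬ f k' = f' k'
        rw [hf, ins_self]; omega
      · rw [if_neg (c := _ ∧ _)]
        · by_cases h2 : k' = k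
          · subst h2
            have h3 : i ≠ f k' := fun h3 => h1 ⟨rfl, h3⟩
            rw [if_neg, if_neg]
            · exact h3
            · change ¬ i = f' k'
              rw [hf, ins_self]; omega
          · change (if i = f' k' then ctr k' else _) = if i = f k' then ctr k' else _
            rw [hf, ins_of_ne h2]
        · rintro ⟨h2, -⟩
          have h3 := congrArg Subtype.val h2
          simp only [lastE, Prod.mk.injEq] at h3
          exact h1 ⟨h3.1, h3.2⟩
    · rw [if_neg (by simp)]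
      rfl
  · obtain ⟨rfl, rfl⟩ : k' = k ∧ i = f k + 1 := ins_cases (by simpa [hf] using hi) h
    rw [show cutE hf (⟨(k', f k' + 1), hi⟩ : EC f') = none from cutE_not hf h]
    cases s
    · change (if f k' + 1 = f' k' then ctr k' else _) = if f k' = f k' then ctr k' else _
      rw [if_pos (by rw [hf, ins_self]), if_pos rfl]
    · change (if f k' + 1 = 0 then ctr k' else _) = _
      rw [if_neg (by omega)]
      rfl

/-- The last edges after a cut. -/
theorem cutE_last (hf : f' = ins f k) (k' : Fin 3) :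
    cutE hf (lastE f' k') = if k' = k then none else some (lastE f k') := by
  by_cases h : k' = k
  · subst h
    rw [if_pos rfl]
    refine cutE_not hf ?_
    change ¬ f' k' ≤ f k'
    rw [hf, ins_self]; omega
  · rw [if_neg h]
    have h1 : f' k' = f k' := by rw [hf, ins_of_ne h]
    rw [cutE_of hf (show (lastE f' k').1.2 ≤ f (lastE f' k').1.1 from h1.le)]
    congr 1
    exact Subtype.ext (Prod.ext rfl h1)

theorem lastE_inj : Function.Injective (lastE f) := fun k k' h => by
  have := congrArg Subtype.val h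
  simp only [lastE, Prod.mk.injEq] at this
  exact this.1

/-- **The cut, with legs**, in the form of `H395.hL`. -/
theorem cut_hL (hf : f' = ins f k) {L : Type} (lab : L → Bool ⊕ (Fin 3 × ℕ))
    {μ : L → Option ((Fin m' → ℂ) → OnePoint ℂ)} (hμ : ∀ x, μ x = none ↔ ¬ AtN f k (lab x))
    (y : (EC f' × Bool) ⊕ L) : cutV hf (gr f' (fun x => loc f' (lab x)) y) =
      H395.hL (gr f fun x => loc f (lab x)) (lastE f k) μ
        (y.map (fun p => (cutE hf p.1, p.2)) id) := by
  rcases y with y | x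
  · exact cut_hI hf y
  · change cutV hf (loc f' (lab x)) = (μ x).elim (some (loc f (lab x))) fun _ => none
    rw [cut_loc]
    rcases h : μ x with _ | c
    · rw [if_neg ((hμ x).1 h)]; rfl
    · rw [if_pos (not_not.1 fun h' => by rw [(hμ x).2 h'] at h; cases h)]; rfl

/-- **The cut, positions with legs**, in the form of `H395.zL`. -/
theorem cut_zL (hf : f' = ins f k) {L : Type} {z z' : L → (Fin m' → ℂ) → OnePoint ℂ}
    {μ : L → Option ((Fin m' → ℂ) → OnePoint ℂ)} (hz : ∀ x, z' x = (μ x).getD (z x))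
    (y : (EC f' × Bool) ⊕ L) : Sum.elim (zE f' ctr) z' y =
      H395.zL (Sum.elim (zE f ctr) z) (lastE f k) μ (y.map (fun p => (cutE hf p.1, p.2)) id) := by
  rcases y with y | x
  · exact cut_zI hf y
  · exact hz x

/-- The positions of the half-edges of one vertex are different. -/
theorem zE_sep {b : Fin m' → ℂ} (hc : ∀ k k', ctr k b = ctr k' b → k = k')
    (y y' : EC f × Bool) (h : he f y = he f y') (hz : zE f ctr y b = zE f ctr y' b) : y = y' := by
  obtain ⟨⟨⟨k, i⟩, hi⟩, s⟩ := y
  obtain ⟨⟨⟨k', i'⟩, hi'⟩, s'⟩ := y'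
  have hi2 : i ≤ f k := hi
  have hi2' : i' ≤ f k' := hi'
  -- the vertex of a half-edge
  have hv : ∀ (k : Fin 3) (i : ℕ) (hi : i ≤ f k) (s : Bool),
      (he f (⟨(k, i), hi⟩, s) = inl false ∧ s = true ∧ i = 0 ∧
        zE f ctr (⟨(k, i), hi⟩, s) b = ctr k b) ∨
      (he f (⟨(k, i), hi⟩, s) = inl true ∧ s = false ∧ i = f k ∧
        zE f ctr (⟨(k, i), hi⟩, s) b = ctr k b) ∨
      (∃ h, he f (⟨(k, i), hi⟩, s) = inr ⟨(k, i), h⟩ ∧ s = true ∧
        zE f ctr (⟨(k, i), hi⟩, s) b = ((0 : ℂ) : OnePoint ℂ)) ∨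
      ∃ h, he f (⟨(k, i), hi⟩, s) = inr ⟨(k, i + 1), h⟩ ∧ s = false ∧
        zE f ctr (⟨(k, i), hi⟩, s) b = OnePoint.infty := by
    intro k i hi s
    cases s
    · rcases hi.lt_or_eq with h1 | h1
      · right; right; right
        refine ⟨⟨Nat.le_add_left _ _, h1⟩, ?_, rfl, ?_⟩
        · change cp f k (i + 1) = _
          rw [cp_of (by omega) h1]
        · rw [zE_false, if_neg (by exact h1.ne)]
      · right; left
        refine ⟨?_, rfl, h1, ?_⟩
        · change cp f k (i + 1) = _
          rw [cp_last (by omega)]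
        · rw [zE_false, if_pos h1]
    · rcases Nat.eq_zero_or_pos i with h1 | h1
      · left
        refine ⟨?_, rfl, h1, ?_⟩
        · change cp f k i = _
          rw [h1, cp_zero]
        · rw [zE_true, if_pos h1]
      · right; right; left
        refine ⟨⟨h1, hi⟩, ?_, rfl, ?_⟩
        · change cp f k i = _
          rw [cp_of h1 hi]
        · rw [zE_true, if_neg (by exact Nat.pos_iff_ne_zero.1 h1)]
  have h0 : ((0 : ℂ) : OnePoint ℂ) ≠ OnePoint.infty := OnePoint.coe_ne_infty 0
  rcases hv k i hi2 s with ⟨a1, a2, a3, a4⟩ | ⟨a1, a2, a3, a4⟩ | ⟨a0, a1, a2, a4⟩ | ⟨a0, a1, a2, a4⟩ <;>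
  rcases hv k' i' hi2' s' with ⟨b1, b2, b3, b4⟩ | ⟨b1, b2, b3, b4⟩ | ⟨b0, b1, b2, b4⟩ |
    ⟨b0, b1, b2, b4⟩ <;> rw [a1, b1] at h <;> rw [a4, b4] at hz
  all_goals first
    | (obtain rfl := hc _ _ hz
       subst a2 b2
       obtain rfl : i = i' := by omega
       rfl)
    | (simp only [inr.injEq, Subtype.mk.injEq, Prod.mk.injEq] at h
       obtain ⟨rfl, h2⟩ := h
       obtain rfl : i = i' := by omega
       subst a2 b2
       rfl)
    | exact absurd hz h0
    | exact absurd hz h0.symm
    | (simp at h)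

/-! ### Marks -/

/-- The last gap of `B` before the rank `i`. -/
def lg (T : RB) (k : Fin 3) (i : ℕ) : ℕ := ((T.B k).filter (· ≤ i)).sup id

/-- The position of the mark of rank `i` on its free component: the product of the gaps since the
first mark of the component. -/
def gpr (T : RB) (τ : Fin 3 → ℕ → ℂ) (k : Fin 3) (i : ℕ) : ℂ :=
  ∏ g ∈ Ioc (lg T k i) i, τ k g

variable {T : RB}

/-- The last gap. -/
theorem lg_eq {i b : ℕ} (hb : b ∈ T.B k) (h : b ≤ i) (h' : ∀ c ∈ T.B k, c ≤ i → c ≤ b) :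
    lg T k i = b := by
  unfold lg
  refine le_antisymm (Finset.sup_le fun c hc => ?_) ?_
  · rw [mem_filter] at hc
    exact h' c hc.1 hc.2
  · exact Finset.le_sup (f := id) (mem_filter.2 ⟨hb, h⟩)

theorem lg_self {i : ℕ} (h : i ∈ T.B k) : lg T k i = i := lg_eq h le_rfl fun _ _ h => h

theorem lg_mem {i : ℕ} (h : 1 ≤ T.cnt k i) : lg T k i ∈ T.B k ∧ lg T k i ≤ i := by
  have h1 : ((T.B k).filter (· ≤ i)).Nonempty := Finset.card_pos.1 h
  obtain ⟨b, hb, e⟩ := Finset.exists_mem_eq_sup _ h1 id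
  rw [mem_filter] at hb
  unfold lg
  rw [e]
  exact hb

/-- The first mark of a component is at one. -/
theorem gpr_self {τ : Fin 3 → ℕ → ℂ} {i : ℕ} (h : i ∈ T.B k) : gpr T τ k i = 1 := by
  unfold gpr
  rw [lg_self h, Ioc_self, prod_empty]

/-- A mark of the component of the mark of rank `β`, `β` a gap of `B`. -/
theorem gpr_eq {τ : Fin 3 → ℕ → ℂ} {β i : ℕ} (h : β ∈ T.B k) (h1 : β ≤ i)
    (h2 : T.cnt k i = T.cnt k β) : gpr T τ k i = ∏ g ∈ Ioc β i, τ k g := by
  unfold gpr
  rw [lg_eq h h1]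
  intro c hc hci
  by_contra hlt
  have := RB.cnt_lt (T := T) hc (not_le.1 hlt) hci
  omega

/-- The position is not zero if only the gaps of `B` are zero. -/
theorem gpr_ne_zero {τ : Fin 3 → ℕ → ℂ} {i : ℕ} (h : ∀ g ≤ i, g ∉ T.B k → τ k g ≠ 0) :
    gpr T τ k i ≠ 0 := by
  unfold gpr
  rw [prod_ne_zero_iff]
  intro g hg
  rw [mem_Ioc] at hg
  refine h g hg.2 fun hB => ?_
  have : g ≤ lg T k i := Finset.le_sup (f := id) (mem_filter.2 ⟨hB, hg.2⟩)
  omega

/-- The product of the gaps after `β` is zero for the marks of the later components. -/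
theorem prod_Ioc_eq_zero {τ : Fin 3 → ℕ → ℂ} {β i : ℕ} (h : T.cnt k β < T.cnt k i)
    (h0 : ∀ g ∈ T.B k, τ k g = 0) : ∏ g ∈ Ioc β i, τ k g = 0 := by
  have h1 : ∃ c ∈ T.B k, β < c ∧ c ≤ i := by
    by_contra hc
    push Not at hc
    have : T.cnt k i ≤ T.cnt k β := by
      refine Finset.card_le_card fun c hc' => ?_
      rw [mem_filter] at hc' ⊢
      refine ⟨hc'.1, ?_⟩
      by_contra h2
      exact absurd (hc c hc'.1 (not_le.1 h2)) (not_lt.2 hc'.2)
    omega
  obtain ⟨c, hc, h2, h3⟩ := h1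
  exact prod_eq_zero (mem_Ioc.2 ⟨h2, h3⟩) (h0 c hc)

end Vale.Agent.P273.H228

end
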