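import Vale.Agent.P273.H228.Steps
import Vale.Agent.P273.H395.NodeNorm

/-!
P273, the graph of a word with all marks as legs (inserted or not), and its change when one more mark
is inserted. A mark that is at the last node of a neck is put on the line of the side `true` (towards
the core `false`) of that node.
-/

namespace Vale.Agent.P273.H228

open Sum Finset H93

variable {f f' : Fin 3 → ℕ} {k : Fin 3}

/-- The vertex of a label: a mark of the component `r` of the neck `k` is on this component if it is
already there, and on the last component before the last node otherwise. -/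
def loc (f : Fin 3 → ℕ) : Bool ⊕ (Fin 3 × ℕ) → VC f
  | inl b => inl b
  | inr x => cp f x.1 (min x.2 (f x.1))

/-- The label is at the last node of the neck `k`. -/
def AtN (f : Fin 3 → ℕ) (k : Fin 3) (l : Bool ⊕ (Fin 3 × ℕ)) : Prop :=
  ∃ r, l = inr (k, r) ∧ f k < r

instance : DecidablePred (AtN f k)
  | inl _ => isFalse (by rintro ⟨r, h, -⟩; cases h)
  | inr (k', r) => decidable_of_iff (k' = k ∧ f k < r) <| by
      constructor
      · rintro ⟨rfl, h2⟩; exact ⟨r, rfl, h2⟩
      · rintro ⟨r', h1, h2⟩; cases h1; exact ⟨rfl, h2⟩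

theorem loc_inl (b : Bool) : loc f (inl b) = inl b := rfl

theorem loc_inr {k' : Fin 3} {r : ℕ} (h : r ≤ f k') : loc f (inr (k', r)) = cp f k' r := by
  change cp f k' (min r (f k')) = _
  rw [min_eq_left h]

/-- A label at the last node is on the line of the side `true` of the last edge. -/
theorem loc_atN {l : Bool ⊕ (Fin 3 × ℕ)} (h : AtN f k l) : loc f l = he f (lastE f k, true) := by
  obtain ⟨r, rfl, h⟩ := h
  change cp f k (min r (f k)) = cp f k (f k)
  rw [min_eq_right h.le]

/-! ### The cut -/

/-- **The cut, half-edges.** -/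
theorem cut_hI (hf : f' = ins f k) (y : EC f' × Bool) :
    cutV hf (he f' y) = H395.hI (he f) (lastE f k) (cutE hf y.1, y.2) := by
  rw [cut_he hf (L := Empty) (fun x => x.elim) y]
  generalize cutE hf y.1 = e
  generalize y.2 = s
  rcases e with _ | e
  · cases s <;> rfl
  · cases s <;> rfl

/-- **The cut, labels.** -/
theorem cut_loc (hf : f' = ins f k) (l : Bool ⊕ (Fin 3 × ℕ)) :
    cutV hf (loc f' l) = if AtN f k l then none else some (loc f l) := by
  rcases l with b | ⟨k', r⟩
  · rw [if_neg]
    · rfl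
    · rintro ⟨r, h, -⟩; cases h
  · by_cases h : AtN f k (inr (k', r))
    · rw [if_pos h]
      obtain ⟨r', h1, h2⟩ := h
      cases h1
      change cutV hf (cp f' k (min r (f' k))) = none
      have h3 : f' k = f k + 1 := by rw [hf, ins_self]
      rw [h3, min_eq_right (by omega)]
      exact cutV_new hf
    · rw [if_neg h]
      change cutV hf (cp f' k' (min r (f' k'))) = some (cp f k' (min r (f k')))
      have h1 : min r (f' k') = min r (f k') := by
        by_cases h2 : k' = k
        · subst h2
          have h3 : r ≤ f k' := not_lt.1 fun h3 => h ⟨r, rfl, h3⟩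
          rw [min_eq_left h3, min_eq_left (h3.trans (by rw [hf]; exact le_ins _ _ _))]
        · rw [hf, ins_of_ne h2]
      rw [h1]
      exact cutV_cp hf (min_le_right _ _)

/-! ### No cut -/

theorem same_he (hf : f' = f) (y : EC f' × Bool) :
    sameV hf (he f' y) = he f (sameE hf y.1, y.2) := by
  subst hf
  change sameV rfl (he f' y) = he f' y
  rcases he f' y with b | x <;> rfl

theorem same_loc (hf : f' = f) (l : Bool ⊕ (Fin 3 × ℕ)) : sameV hf (loc f' l) = loc f l := by
  subst hf
  rcases loc f' l with b | x <;> rfl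

/-! ### The start -/

/-- **The start, half-edges**: the side `true` is at the core `false`. -/
theorem start_he (hf : ∀ k, f k = 0) (y : EC f × Bool) :
    startV hf false (he f y) = (startE hf false y).2 :=
  start_gr hf false (L := Empty) (lab := fun x => x.elim) (lab' := fun x => x.elim)
    (fun x => x.elim) (inl y)

theorem startE_fst (hf : ∀ k, f k = 0) (y : EC f × Bool) :
    startE hf false y = (y.1.1.1, !y.2) := by
  obtain ⟨e, s⟩ := y
  cases s <;> rfl

theorem start_loc (hf : ∀ k, f k = 0) (l : Bool ⊕ (Fin 3 × ℕ)) :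
    startV hf false (loc f l) = l.elim id fun _ => false := by
  rcases l with b | ⟨k, r⟩
  · cases b <;> rfl
  · change startV hf false (cp f k (min r (f k))) = false
    rw [hf k, Nat.min_zero, cp_zero]
    rfl

/-! ### The stages of a region with gaps -/

variable {T : RB} {j : Fin 3 → ℕ}

/-- The number of gaps of `B` before the gap `i`. -/
def nb (T : RB) (k : Fin 3) (i : ℕ) : ℕ := ((T.B k).filter (· < i)).card

theorem fr_eq (T : RB) (j : Fin 3 → ℕ) (k : Fin 3) :
    fr T j k = min (nb T k (j k)) ((T.B k).card - 1) := rfl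

theorem card_pos (T : RB) (k : Fin 3) : 1 ≤ (T.B k).card := Finset.card_pos.2 (T.ne k)

theorem nb_succ (T : RB) (k : Fin 3) (i : ℕ) : nb T k (i + 1) = T.cnt k i := by
  unfold nb RB.cnt
  congr 1
  ext b
  simp only [mem_filter, Nat.lt_succ_iff]

theorem nb_mono {k : Fin 3} {i i' : ℕ} (h : i ≤ i') : nb T k i ≤ nb T k i' :=
  Finset.card_le_card fun b hb => by
    rw [mem_filter] at hb ⊢
    exact ⟨hb.1, by omega⟩

theorem nb_le (T : RB) (k : Fin 3) (i : ℕ) : nb T k i ≤ (T.B k).card :=
  Finset.card_le_card (filter_subset _ _)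

theorem cnt_of_mem {k : Fin 3} {i : ℕ} (h : i ∈ T.B k) : T.cnt k i = nb T k i + 1 := by
  unfold nb RB.cnt
  have h1 : (T.B k).filter (· ≤ i) = insert i ((T.B k).filter (· < i)) := by
    ext b
    simp only [mem_filter, mem_insert]
    constructor
    · rintro ⟨h1, h2⟩
      rcases h2.lt_or_eq with h3 | h3
      · exact Or.inr ⟨h1, h3⟩
      · exact Or.inl h3
    · rintro (rfl | ⟨h1, h2⟩)
      · exact ⟨h, le_rfl⟩
      · exact ⟨h1, h2.le⟩
  rw [h1, card_insert_of_notMem (by simp)]

theorem cnt_of_not_mem {k : Fin 3} {i : ℕ} (h : i ∉ T.B k) : T.cnt k i = nb T k i := by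
  unfold nb RB.cnt
  congr 1
  ext b
  simp only [mem_filter]
  constructor
  · rintro ⟨h1, h2⟩
    exact ⟨h1, lt_of_le_of_ne h2 fun h3 => h (h3 ▸ h1)⟩
  · rintro ⟨h1, h2⟩; exact ⟨h1, h2.le⟩

theorem fr_zero (T : RB) (k : Fin 3) : fr T (fun _ => 0) k = 0 := by
  rw [fr_eq]
  have : nb T k 0 = 0 := by
    unfold nb
    rw [Finset.card_eq_zero]
    ext b
    simp
  rw [this, Nat.zero_min]

/-- **The cut**: the next mark is in a new free component. -/
theorem fr_cut (h1 : j k ∈ T.B k) (h2 : ∃ b ∈ T.B k, j k < b) :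
    fr T (ins j k) = ins (fr T j) k ∧ T.cnt k (j k) = fr T j k + 1 := by
  obtain ⟨b, hb, hjb⟩ := h2
  have h3 : T.cnt k (j k) < (T.B k).card := RB.cnt_lt_card hb hjb
  have h4 := cnt_of_mem h1
  have h5 : fr T j k = nb T k (j k) := by rw [fr_eq]; omega
  refine ⟨?_, by omega⟩
  funext k'
  by_cases hk : k' = k
  · subst hk
    rw [ins_self, fr_eq, ins_self, nb_succ]
    omega
  · rw [ins_of_ne hk, fr_eq, fr_eq, ins_of_ne hk]

/-- **No cut**: the gap before the next mark is not in `B`, or is the last one. -/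
theorem fr_same (h : j k ∉ T.B k ∨ ∀ b ∈ T.B k, b ≤ j k) : fr T (ins j k) = fr T j := by
  funext k'
  by_cases hk : k' = k
  · subst hk
    rw [fr_eq, fr_eq, ins_self, nb_succ]
    rcases h with h | h
    · rw [cnt_of_not_mem h]
    · by_cases h1 : j k' ∈ T.B k'
      · have h2 : T.cnt k' (j k') = (T.B k').card := by
          unfold RB.cnt
          rw [filter_true_of_mem h]
        have := cnt_of_mem h1
        omega
      · rw [cnt_of_not_mem h1]
  · rw [fr_eq, fr_eq, ins_of_ne hk]

/-- The new mark of a cut is in the new component. -/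
theorem comp_cut (h1 : j k ∈ T.B k) (h2 : ∃ b ∈ T.B k, j k < b) {x : Mk} (hx : T.pl x = inl k)
    (hr : T.rk x = j k) : T.comp x = inr (k, fr T j k + 1) := by
  obtain ⟨b, hb, hjb⟩ := h2
  have h3 : T.cnt k (j k) < (T.B k).card := RB.cnt_lt_card hb hjb
  have h4 := cnt_of_mem h1
  have h5 := (fr_cut h1 ⟨b, hb, hjb⟩).2
  rw [RB.comp_neck hx, hr, if_neg (by omega), if_neg (by omega), h5]

/-- The component of a mark that is already inserted is already there. -/
theorem comp_le {x : Mk} {k' : Fin 3} {r : ℕ} (h : T.comp x = inr (k', r))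
    (hr : T.rk x < j k') : 1 ≤ r ∧ r ≤ fr T j k' := by
  obtain ⟨h1, h2, h3, h4⟩ := RB.comp_eq_inr.1 h
  refine ⟨h3, ?_⟩
  have h5 : T.cnt k' (T.rk x) ≤ nb T k' (j k') := by
    rw [← nb_succ]; exact nb_mono hr
  have h6 : T.cnt k' (T.rk x) ≤ (T.B k').card := by
    rw [← nb_succ]; exact nb_le _ _ _
  rw [fr_eq]
  omega

/-- A mark which is already inserted is not at the last node. -/
theorem not_atN {x : Mk} {k' : Fin 3} (hr : T.pl x = inl k' → T.rk x < j k') :
    ¬ AtN (fr T j) k' (T.comp x) := by
  rintro ⟨r, h1, h2⟩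
  have h3 := (comp_le h1 (hr (RB.comp_eq_inr.1 h1).1)).2
  omega

/-- A mark is at the last node if and only if there are gaps of `B` on both sides of it, between the
last inserted mark and it, and after it. -/
theorem atN_iff {x : Mk} (hx : T.pl x = inl k) (hr : j k ≤ T.rk x) :
    AtN (fr T j) k (T.comp x) ↔
      (∃ b ∈ T.B k, j k ≤ b ∧ b ≤ T.rk x) ∧ ∃ b ∈ T.B k, T.rk x < b := by
  have e1 : nb T k (j k) ≤ T.cnt k (T.rk x) := by rw [← nb_succ]; exact nb_mono (by omega)
  constructor
  · rintro ⟨r, h1, h2⟩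
    obtain ⟨-, h3, h4, h5⟩ := RB.comp_eq_inr.1 h1
    have h6 : T.cnt k (T.rk x) ≤ (T.B k).card := by rw [← nb_succ]; exact nb_le _ _ _
    rw [fr_eq] at h2
    constructor
    · by_contra h
      push Not at h
      have : T.cnt k (T.rk x) = nb T k (j k) := by
        unfold nb RB.cnt
        congr 1
        ext b
        simp only [mem_filter]
        constructor
        · rintro ⟨g1, g2⟩
          refine ⟨g1, ?_⟩
          by_contra g3
          exact absurd (h b g1 (not_lt.1 g3)) (not_lt.2 g2)
        · rintro ⟨g1, g2⟩; exact ⟨g1, by omega⟩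
      omega
    · by_contra h
      push Not at h
      have : T.cnt k (T.rk x) = (T.B k).card := by
        unfold RB.cnt
        rw [filter_true_of_mem h]
      omega
  · rintro ⟨⟨b, hb, hb1, hb2⟩, c, hc, hc1⟩
    have h1 : T.cnt k (T.rk x) < (T.B k).card := RB.cnt_lt_card hc hc1
    have h2 : nb T k (j k) < T.cnt k (T.rk x) := by
      unfold nb RB.cnt
      refine Finset.card_lt_card ⟨fun d hd => ?_, fun h => ?_⟩
      · rw [mem_filter] at hd ⊢
        exact ⟨hd.1, by omega⟩
      · have := h (mem_filter.2 ⟨hb, hb2⟩)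
        rw [mem_filter] at this
        omega
    refine ⟨T.cnt k (T.rk x), ?_, ?_⟩
    · rw [RB.comp_neck hx, if_neg (by omega), if_neg (by omega)]
    · rw [fr_eq]
      omega

/-- All marks are inserted. -/
theorem fr_end (T : RB) (k : Fin 3) : fr T (fun k => T.n k) k = (T.B k).card - 1 := by
  rw [fr_eq]
  have h : (T.B k).card ≤ nb T k (T.n k) + 1 := by
    have h1 : T.B k ⊆ insert (T.n k) ((T.B k).filter (· < T.n k)) := fun b hb => by
      have h2 : b ≤ T.n k := T.sub k b hb
      rw [mem_insert, mem_filter]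
      rcases h2.lt_or_eq with h3 | h3
      · exact Or.inr ⟨hb, h3⟩
      · exact Or.inl h3
    exact (Finset.card_le_card h1).trans (Finset.card_insert_le _ _)
  omega

end Vale.Agent.P273.H228
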