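import Vale.Agent.P273.H228.Graph
import Vale.Agent.P273.H188.NormRe

/-!
P273, the steps of a word on the graphs of `H228.Graph`: the start graph, the insertion of a mark in
the last node of a neck (four cases), and a mark on a core; as isomorphisms in the form of
`H188.Norm.reindex`.
-/

namespace Vale.Agent.P273.H228

open Sum Finset H93

variable {f f' : Fin 3 → ℕ} {k : Fin 3}

/-! ### Vertices -/

theorem toV_inl (b : Bool) : toV f (inl b) = inl b := rfl

theorem toV_inr {x : Fin 3 × ℕ} (h : 1 ≤ x.2 ∧ x.2 ≤ f x.1) : toV f (inr x) = inr ⟨x, h⟩ :=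
  dif_pos h

theorem toV_not {x : Fin 3 × ℕ} (h : ¬ (1 ≤ x.2 ∧ x.2 ≤ f x.1)) : toV f (inr x) = inl true :=
  dif_neg h

theorem cp_zero : cp f k 0 = inl false := if_pos rfl

theorem cp_of {r : ℕ} (h1 : 1 ≤ r) (h2 : r ≤ f k) : cp f k r = inr ⟨(k, r), h1, h2⟩ := by
  unfold cp
  rw [if_neg (by omega)]
  exact toV_inr ⟨h1, h2⟩

theorem cp_last {r : ℕ} (h : f k < r) : cp f k r = inl true := by
  unfold cp
  rw [if_neg (by omega)]
  exact toV_not fun h' => absurd h'.2 (not_le.2 h)

instance : Finite (VC f) := by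
  have : Finite {x : Fin 3 × ℕ // 1 ≤ x.2 ∧ x.2 ≤ f x.1} := by
    refine Finite.of_injective (β := Fin 3 × Fin (f 0 + f 1 + f 2 + 1))
      (fun x => (x.1.1, ⟨x.1.2, ?_⟩)) ?_
    · have h := x.2.2
      have h3 : f x.1.1 ≤ f 0 + f 1 + f 2 := by
        generalize x.1.1 = k
        fin_cases k <;> simp <;> omega
      omega
    · rintro ⟨⟨a, b⟩, h⟩ ⟨⟨c, d⟩, h'⟩ e
      simp only [Prod.mk.injEq, Fin.mk.injEq] at e
      obtain ⟨rfl, rfl⟩ := e
      rfl
  infer_instance

instance : Finite (EC f) := by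
  refine Finite.of_injective (β := Fin 3 × Fin (f 0 + f 1 + f 2 + 1))
    (fun x => (x.1.1, ⟨x.1.2, ?_⟩)) ?_
  · have h := x.2
    have h3 : f x.1.1 ≤ f 0 + f 1 + f 2 := by
      generalize x.1.1 = k
      fin_cases k <;> simp <;> omega
    omega
  · rintro ⟨⟨a, b⟩, h⟩ ⟨⟨c, d⟩, h'⟩ e
    simp only [Prod.mk.injEq, Fin.mk.injEq] at e
    obtain ⟨rfl, rfl⟩ := e
    rfl

/-- One more free component in the chain `k`. -/
def ins (f : Fin 3 → ℕ) (k : Fin 3) (k' : Fin 3) : ℕ := if k' = k then f k' + 1 else f k'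

theorem ins_self (f : Fin 3 → ℕ) (k : Fin 3) : ins f k k = f k + 1 := if_pos rfl

theorem ins_of_ne {k' : Fin 3} (h : k' ≠ k) : ins f k k' = f k' := if_neg h

theorem le_ins (f : Fin 3 → ℕ) (k k' : Fin 3) : f k' ≤ ins f k k' := by
  unfold ins; split_ifs <;> omega

theorem ins_cases {k' : Fin 3} {r : ℕ} (h : r ≤ ins f k k') (h' : ¬ r ≤ f k') :
    k' = k ∧ r = f k + 1 := by
  unfold ins at h
  split_ifs at h with h1
  · subst h1; exact ⟨rfl, by omega⟩
  · exact absurd h h'

/-! ### The cut -/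

/-- The vertices after a cut. -/
def cutV (hf : f' = ins f k) : VC f' ≃ Option (VC f) where
  toFun
    | inl b => some (inl b)
    | inr x => if h : x.1.2 ≤ f x.1.1 then some (inr ⟨x.1, x.2.1, h⟩) else none
  invFun
    | none => inr ⟨(k, f k + 1), Nat.le_add_left _ _, by rw [hf, ins_self]⟩
    | some (inl b) => inl b
    | some (inr x) => inr ⟨x.1, x.2.1, x.2.2.trans (by rw [hf]; exact le_ins _ _ _)⟩
  left_inv := by
    rintro (b | ⟨⟨k', r⟩, h1, h2⟩)
    · rfl
    · by_cases h : r ≤ f k'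
      · simp only [dif_pos h]
      · simp only [dif_neg h]
        have h3 : k' = k ∧ r = f k + 1 := ins_cases (by simpa [hf] using h2) h
        obtain ⟨rfl, rfl⟩ := h3
        rfl
  right_inv := by
    rintro (_ | b | ⟨⟨k', r⟩, h1, h2⟩)
    · simp
    · rfl
    · simp only [dif_pos (show r ≤ f k' from h2)]

/-- The edges after a cut. -/
def cutE (hf : f' = ins f k) : EC f' ≃ Option (EC f) where
  toFun x := if h : x.1.2 ≤ f x.1.1 then some ⟨x.1, h⟩ else none
  invFun
    | none => ⟨(k, f k + 1), by rw [hf, ins_self]⟩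
    | some x => ⟨x.1, x.2.trans (by rw [hf]; exact le_ins _ _ _)⟩
  left_inv := by
    rintro ⟨⟨k', r⟩, h2⟩
    by_cases h : r ≤ f k'
    · simp only [dif_pos h]
    · simp only [dif_neg h]
      have h3 : k' = k ∧ r = f k + 1 := ins_cases (by simpa [hf] using h2) h
      obtain ⟨rfl, rfl⟩ := h3
      rfl
  right_inv := by
    rintro (_ | ⟨⟨k', r⟩, h2⟩)
    · simp
    · simp only [dif_pos (show r ≤ f k' from h2)]

theorem cutV_inl (hf : f' = ins f k) (b : Bool) : cutV hf (inl b) = some (inl b) := rfl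

theorem cutV_inr (hf : f' = ins f k) {x : Fin 3 × ℕ} (h : 1 ≤ x.2 ∧ x.2 ≤ f' x.1)
    (h2 : x.2 ≤ f x.1) : cutV hf (inr ⟨x, h⟩) = some (inr ⟨x, h.1, h2⟩) := dif_pos h2

theorem cutV_toV (hf : f' = ins f k) {l : Bool ⊕ (Fin 3 × ℕ)}
    (hl : ∀ x, l = inr x → 1 ≤ x.2 ∧ x.2 ≤ f x.1) : cutV hf (toV f' l) = some (toV f l) := by
  rcases l with b | x
  · rfl
  · obtain ⟨h1, h2⟩ := hl x rfl
    rw [toV_inr ⟨h1, h2⟩, toV_inr ⟨h1, h2.trans (by rw [hf]; exact le_ins _ _ _)⟩]
    exact cutV_inr hf _ h2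

theorem cutV_new (hf : f' = ins f k) : cutV hf (cp f' k (f k + 1)) = none := by
  rw [cp_of (by omega) (by rw [hf, ins_self])]
  change (if h : f k + 1 ≤ f k then some _ else none) = none
  rw [dif_neg (by omega)]

theorem cutV_cp (hf : f' = ins f k) {k' : Fin 3} {r : ℕ} (h : r ≤ f k') :
    cutV hf (cp f' k' r) = some (cp f k' r) := by
  rcases Nat.eq_zero_or_pos r with rfl | h0
  · rw [cp_zero, cp_zero]; rfl
  · unfold cp
    rw [if_neg (by omega), if_neg (by omega)]
    refine cutV_toV hf fun x hx => ?_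
    cases hx
    exact ⟨h0, h⟩

theorem cutE_of (hf : f' = ins f k) {x : EC f'} (h : x.1.2 ≤ f x.1.1) :
    cutE hf x = some ⟨x.1, h⟩ := dif_pos h

theorem cutE_not (hf : f' = ins f k) {x : EC f'} (h : ¬ x.1.2 ≤ f x.1.1) :
    cutE hf x = none := dif_neg h

/-- The half-edges after a cut. -/
theorem cut_he (hf : f' = ins f k) {L : Type} (lab : L → VC f) (y : EC f' × Bool) :
    cutV hf (he f' y) = cutG (gr f lab) (lastE f k) true (inl (cutE hf y.1, y.2)) := by
  obtain ⟨⟨⟨k', i⟩, hi⟩, s⟩ := y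
  by_cases h : i ≤ f k'
  · have e1 : cutE hf ⟨(k', i), hi⟩ = some ⟨(k', i), h⟩ := cutE_of hf h
    change cutV hf (he f' (⟨(k', i), hi⟩, s)) = cutG (gr f lab) (lastE f k) true
      (inl (cutE hf ⟨(k', i), hi⟩, s))
    rw [e1]
    cases s
    · change cutV hf (cp f' k' (i + 1)) = if _ then _ else some (cp f k' (i + 1))
      by_cases h1 : k' = k ∧ i = f k
      · obtain ⟨rfl, rfl⟩ := h1
        rw [if_pos ⟨rfl, rfl⟩]
        exact cutV_new hf
      · rw [if_neg]
        · by_cases h2 : i + 1 ≤ f k'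
          · exact cutV_cp hf h2
          · have h3 : k' ≠ k := fun h3 => h1 ⟨h3, by subst h3; omega⟩
            rw [cp_last (f := f) (by omega), cp_last (f := f') (by rw [hf, ins_of_ne h3]; omega)]
            rfl
        · rintro ⟨h2, -⟩
          have h3 := congrArg Subtype.val h2
          simp only [lastE, Prod.mk.injEq] at h3
          exact h1 ⟨h3.1, h3.2⟩
    · change cutV hf (cp f' k' i) = if _ then _ else some (cp f k' i)
      rw [if_neg (by simp)]
      exact cutV_cp hf h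
  · obtain ⟨rfl, rfl⟩ : k' = k ∧ i = f k + 1 := ins_cases (by simpa [hf] using hi) h
    have e1 : cutE hf ⟨(k', f k' + 1), hi⟩ = none := cutE_not hf h
    change cutV hf (he f' (⟨(k', f k' + 1), hi⟩, s)) = cutG (gr f lab) (lastE f k') true
      (inl (cutE hf ⟨(k', f k' + 1), hi⟩, s))
    rw [e1]
    cases s
    · change cutV hf (cp f' k' (f k' + 1 + 1)) = some (cp f k' (f k' + 1))
      rw [cp_last (f := f') (by rw [hf, ins_self]; omega), cp_last (f := f) (by omega)]
      rfl
    · change cutV hf (cp f' k' (f k' + 1)) = none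
      exact cutV_new hf

/-- **A cut.** -/
theorem cut_gr (hf : f' = ins f k) {L : Type} {lab : L → VC f} {lab' : Option L → VC f'}
    (h0 : lab' none = cp f' k (f k + 1)) (h1 : ∀ x, cutV hf (lab' (some x)) = some (lab x))
    (y : (EC f' × Bool) ⊕ Option L) :
    cutV hf (gr f' lab' y) = cutG (gr f lab) (lastE f k) true
      (y.map (fun p => (cutE hf p.1, p.2)) id) := by
  rcases y with y | _ | x
  · exact cut_he hf lab y
  · change cutV hf (lab' none) = none
    rw [h0]; exact cutV_new hf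
  · exact h1 x

/-! ### No cut -/

/-- The same vertices. -/
def sameV (hf : f' = f) : VC f' ≃ VC f where
  toFun
    | inl b => inl b
    | inr x => inr ⟨x.1, hf ▸ x.2⟩
  invFun
    | inl b => inl b
    | inr x => inr ⟨x.1, hf.symm ▸ x.2⟩
  left_inv := by rintro (b | x) <;> rfl
  right_inv := by rintro (b | x) <;> rfl

/-- The same edges. -/
def sameE (hf : f' = f) : EC f' ≃ EC f where
  toFun x := ⟨x.1, hf ▸ x.2⟩
  invFun x := ⟨x.1, hf.symm ▸ x.2⟩
  left_inv _ := rfl
  right_inv _ := rfl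

theorem sameV_toV (hf : f' = f) (l : Bool ⊕ (Fin 3 × ℕ)) : sameV hf (toV f' l) = toV f l := by
  subst hf
  rcases h : toV f' l with b | x <;> rfl

/-- **A new leg without a cut.** -/
theorem same_gr (hf : f' = f) {L : Type} {lab : L → VC f} {lab' : Option L → VC f'} {v : VC f}
    (h0 : sameV hf (lab' none) = v) (h1 : ∀ x, sameV hf (lab' (some x)) = lab x)
    (y : (EC f' × Bool) ⊕ Option L) :
    sameV hf (gr f' lab' y) = addL (gr f lab) v (y.map (fun p => (sameE hf p.1, p.2)) id) := by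
  subst hf
  rcases y with y | _ | x
  · change sameV rfl (he f' y) = he f' y
    rcases he f' y with b | x <;> rfl
  · exact h0
  · exact h1 x

/-! ### The start graph -/

/-- The cores and the two sheets; `s₀` is the sheet of the core `false`. -/
def startV (hf : ∀ k, f k = 0) (s₀ : Bool) : VC f ≃ Bool where
  toFun
    | inl b => xor s₀ b
    | inr x => absurd (x.2.1.trans x.2.2) (by rw [hf x.1.1]; omega)
  invFun b := inl (xor s₀ b)
  left_inv := by
    rintro (b | x)
    · cases s₀ <;> cases b <;> rfl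
    · exact absurd (x.2.1.trans x.2.2) (by rw [hf x.1.1]; omega)
  right_inv := by
    intro b
    cases s₀ <;> cases b <;> rfl

/-- The edges of the start graph; the side `true` is at the sheet `s₀`. -/
def startE (hf : ∀ k, f k = 0) (s₀ : Bool) : EC f × Bool ≃ Fin 3 × Bool where
  toFun p := (p.1.1.1, !(xor s₀ p.2))
  invFun q := (⟨(q.1, 0), Nat.zero_le _⟩, !(xor s₀ q.2))
  left_inv := by
    rintro ⟨⟨⟨k, i⟩, h⟩, s⟩
    have h0 : i = 0 := Nat.le_zero.1 (le_of_le_of_eq h (hf k))
    subst h0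
    cases s₀ <;> cases s <;> rfl
  right_inv := by
    rintro ⟨k, s⟩
    cases s₀ <;> cases s <;> rfl

theorem startE_not (hf : ∀ k, f k = 0) (s₀ : Bool) (e : EC f) (s : Bool) :
    startE hf s₀ (e, !s) = ((startE hf s₀ (e, s)).1, !(startE hf s₀ (e, s)).2) := by
  cases s₀ <;> cases s <;> rfl

/-- **The start graph.** -/
theorem start_gr (hf : ∀ k, f k = 0) (s₀ : Bool) {L : Type} {lab : L → Bool} {lab' : L → VC f}
    (h : ∀ x, startV hf s₀ (lab' x) = lab x) (y : (EC f × Bool) ⊕ L) :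
    startV hf s₀ (gr f lab' y) =
      Sum.elim (fun q : Fin 3 × Bool => q.2) lab (y.map (startE hf s₀) id) := by
  rcases y with ⟨⟨⟨k, i⟩, hi⟩, s⟩ | x
  · have h0 : i = 0 := Nat.le_zero.1 (le_of_le_of_eq hi (hf k))
    subst h0
    cases s
    · change startV hf s₀ (cp f k 1) = _
      rw [cp_last (by rw [hf k]; exact Nat.one_pos)]
      cases s₀ <;> rfl
    · change startV hf s₀ (cp f k 0) = _
      rw [cp_zero]
      cases s₀ <;> rfl
  · exact h x

end Vale.Agent.P273.H228
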