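import Vale.Agent.P273.H573.SumDefs

/-!
P273, LIM, step 6: from the integral over the fibre domain for one choice of the eliminated gaps to
the statements `SumT`, `SumA`.
-/

noncomputable section

namespace Vale.Agent.P273.H228

open Set Filter MeasureTheory H681 H95 H732 H973 H562 H573
open scoped Topology

/-- The volume of the cell of the large gaps for one choice of the eliminated gaps. -/
def vm (Q : H93.RB) (y : Fin 3 → ℝ) : ℝ :=
  ∏ k, y k ^ ((Q.B k).card - 1) / ((Q.B k).card.factorial : ℝ)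

/-- The integral over the fibre domain, for one choice of the eliminated gaps. -/
def Core (X : Ext) : Prop := ∀ T : MT, SymT T → ∀ (n : ℕ) (Q : H93.RB), ∑ k, (Q.B k).card = 9 →
  ∀ (far : (H728.rg Q).Cm → Bool) (m : ∀ k, Fin ((H728.rg Q).n k + 1)), (∀ k, (m k).1 ∈ Q.B k) →
  ∀ y : Fin 3 → ℝ, (∀ k, 0 < y k) → ∀ (α : Fin 3 → ℝ) (a b : Co (H728.rg Q) m),
    a.1 = 0 → a.2.1 = 0 → a.2.2.2.2 = 0 → b.1 = 0 → b.2.1 = 0 → b.2.2.2.2 = 0 →
    ∫ x in domL (H728.rg Q) m far (Q.fr m) y,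
      OmL (H728.rg Q) m X T n (Sx (H728.rg Q) far) (Q.fr m) (mk (H728.rg Q) m y α x)
        (fr30 (H728.rg Q) m a b) =
    vm Q y * (2 * Real.pi) ^ 6 *
      DTc (H728.rg Q) T n (gB Q) y (fun c => if c then cval _ m y b else cval _ m y a) *
      piece (H728.rg Q) X far (gB Q)

/-! ### Counting -/

theorem crd_gB (Q : H93.RB) (k : Fin 3) : crd (H728.rg Q) (gB Q) k = (Q.B k).card := by
  unfold crd
  refine Finset.card_bij (fun g _ => (g.2 : ℕ)) ?_ ?_ ?_
  · intro g hg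
    rw [Finset.mem_filter, gB, Finset.mem_filter] at hg
    obtain ⟨⟨-, h1⟩, h2⟩ := hg
    rw [← h2]; exact h1
  · rintro ⟨k₁, g₁⟩ h₁ ⟨k₂, g₂⟩ h₂ h
    rw [Finset.mem_filter] at h₁ h₂
    obtain rfl : k₁ = k := h₁.2
    obtain rfl : k₂ = k₁ := h₂.2
    have : g₁ = g₂ := Fin.ext h
    rw [this]
  · intro b hb
    have h1 : b ≤ Q.n k := Q.sub k b hb
    have h2 : b < (H728.rg Q).n k + 1 := Nat.lt_succ_of_le h1
    refine ⟨⟨k, ⟨b, h2⟩⟩, ?_, rfl⟩
    rw [Finset.mem_filter, gB, Finset.mem_filter]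
    exact ⟨⟨Finset.mem_univ _, hb⟩, rfl⟩

/-- The number of the choices of the eliminated gaps. -/
theorem card_choices (Q : H93.RB) :
    ((Finset.univ : Finset (∀ k, Fin ((H728.rg Q).n k + 1))).filter
      fun m => ∀ k, (m k).1 ∈ Q.B k).card = ∏ k, (Q.B k).card := by
  have h1 : ((Finset.univ : Finset (∀ k, Fin ((H728.rg Q).n k + 1))).filter
      fun m => ∀ k, (m k).1 ∈ Q.B k) =
      Fintype.piFinset fun k => Finset.univ.filter fun i : Fin ((H728.rg Q).n k + 1) =>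
        i.1 ∈ Q.B k := by
    ext m
    simp only [Finset.mem_filter, Finset.mem_univ, true_and, Fintype.mem_piFinset]
  rw [h1, Fintype.card_piFinset]
  refine Finset.prod_congr rfl fun k _ => ?_
  refine Finset.card_bij (fun i _ => (i : ℕ)) ?_ ?_ ?_
  · intro i hi
    rw [Finset.mem_filter] at hi
    exact hi.2
  · intro i _ j _ h
    exact Fin.ext h
  · intro b hb
    have h2 : b < (H728.rg Q).n k + 1 := Nat.lt_succ_of_le (Q.sub k b hb)
    refine ⟨⟨b, h2⟩, ?_, rfl⟩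
    rw [Finset.mem_filter]
    exact ⟨Finset.mem_univ _, hb⟩

theorem card_mul_vm (Q : H93.RB) (y : Fin 3 → ℝ) :
    ((∏ k, (Q.B k).card : ℕ) : ℝ) * vm Q y = vol (H728.rg Q) (gB Q) y := by
  unfold vm vol
  rw [Nat.cast_prod, ← Finset.prod_mul_distrib]
  refine Finset.prod_congr rfl fun k _ => ?_
  rw [crd_gB]
  have h1 : 1 ≤ (Q.B k).card := Finset.card_pos.2 (Q.ne k)
  obtain ⟨c, hc⟩ : ∃ c, (Q.B k).card = c + 1 := ⟨(Q.B k).card - 1, by omega⟩
  rw [hc, Nat.add_sub_cancel, Nat.factorial_succ, Nat.cast_mul]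
  have h2 : ((c + 1 : ℕ) : ℝ) ≠ 0 := Nat.cast_ne_zero.2 (Nat.succ_ne_zero c)
  have h3 : (c.factorial : ℝ) ≠ 0 := Nat.cast_ne_zero.2 c.factorial_ne_zero
  field_simp

/-! ### The values on the base -/

section

variable {R : Region} {m : ∀ k, Fin (R.n k + 1)}

theorem cval_al (y : Fin 3 → ℝ) (i : Fin 3) (c : ℝ) :
    cval R m y (c • (W R m).vec (.al i)) = c • dlA y i := by
  unfold cval
  have h1 : ∀ l, (c • (W R m).vec (.al i) : Co R m).2.2.1 l = 0 := fun l => by
    change c * (0 : ℝ) = 0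
    rw [mul_zero]
  have h2 : ∀ l, (c • (W R m).vec (.al i) : Co R m).2.2.2.1 l = c * (Pi.single i (1 : ℝ) : Fin 3 → ℝ) l :=
    fun l => rfl
  rw [Finset.sum_eq_zero fun l _ => by rw [h1 l, zero_smul], zero_add,
    Finset.sum_eq_single i]
  · rw [h2, Pi.single_eq_same, mul_one]
  · intro l _ hl
    rw [h2, Pi.single_eq_of_ne hl, mul_zero, zero_smul]
  · intro h
    exact absurd (Finset.mem_univ i) h

theorem cval_y (y : Fin 3 → ℝ) (i : Fin 3) :
    cval R m y ((W R m).vec (.y i)) = dlY y i := by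
  unfold cval
  have h1 : ∀ l, ((W R m).vec (.y i) : Co R m).2.2.2.1 l = 0 := fun l => rfl
  have h2 : ∀ l, ((W R m).vec (.y i) : Co R m).2.2.1 l = (Pi.single i (1 : ℝ) : Fin 3 → ℝ) l :=
    fun l => rfl
  rw [Finset.sum_eq_zero (f := fun l => ((W R m).vec (.y i) : Co R m).2.2.2.1 l • dlA y l)
    fun l _ => by rw [h1 l, zero_smul], add_zero, Finset.sum_eq_single i]
  · rw [h2, Pi.single_eq_same, one_smul]
  · intro l _ hl
    rw [h2, Pi.single_eq_of_ne hl, zero_smul]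
  · intro h
    exact absurd (Finset.mem_univ i) h

end

/-! ### Tori -/

theorem integral_unit_square (c : ℝ) : ∫ _ in Icc (0 : Fin 2 → ℝ) 1, c = c := by
  rw [setIntegral_const, smul_eq_mul]
  have : volume.real (Icc (0 : Fin 2 → ℝ) 1) = 1 := by
    rw [Measure.real, Real.volume_Icc_pi]
    simp
  rw [this, one_mul]

theorem sq_congr {f : (Fin 2 → ℝ) → ℝ} {c : ℝ} (h : ∀ s, f s = c) :
    ∫ s in Icc (0 : Fin 2 → ℝ) 1, f s = c := by
  rw [show f = fun _ => c from funext h]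
  exact integral_unit_square c

theorem torL_def (R : Region) (m : ∀ k, Fin (R.n k + 1)) (X : Ext) (T : MT) (far : R.Cm → Bool)
    (B : Finset (W R m).Fr) (i j : Fin 3) :
    torL R m X T far B i j = ∫ s in Icc (0 : Fin 2 → ℝ) 1, ∫ x in domL R m far B (yT 1),
      OmL R m X T 6 (Sx R far) B (mk R m (yT 1) (aT i j s) x)
        (fr30 R m ((-2 * Real.pi) • (W R m).vec (.al i))
          ((-2 * Real.pi) • (W R m).vec (.al j))) := by
  delta torL
  refine congrArg _ (funext fun s => ?_)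
  refine congrArg _ (funext fun x => ?_)
  refine congrArg _ ?_
  rfl

theorem core_tor (X : Ext) (h : Core X) {T : MT} (hT : SymT T) (i j : Fin 3) {Q : H93.RB}
    (hQ : ∑ k, (Q.B k).card = 9) (far : (H728.rg Q).Cm → Bool)
    {m : ∀ k, Fin ((H728.rg Q).n k + 1)} (hm : ∀ k, (m k).1 ∈ Q.B k) (s : Fin 2 → ℝ) :
    ∫ x in domL (H728.rg Q) m far (Q.fr m) (yT 1),
      OmL (H728.rg Q) m X T 6 (Sx (H728.rg Q) far) (Q.fr m) (mk (H728.rg Q) m (yT 1) (aT i j s) x)
        (fr30 (H728.rg Q) m ((-2 * Real.pi) • (W (H728.rg Q) m).vec (.al i))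
          ((-2 * Real.pi) • (W (H728.rg Q) m).vec (.al j))) =
    vm Q (yT 1) * (2 * Real.pi) ^ 6 *
      DTc (H728.rg Q) T 6 (gB Q) (yT 1) (fun b => (-2 * Real.pi) • dlA (yT 1)
          (if b then j else i)) * piece (H728.rg Q) X far (gB Q) := by
  have h1 := h T hT 6 Q hQ far m hm (yT 1) (fun _ => one_pos) (aT i j s)
      ((-2 * Real.pi) • (W (H728.rg Q) m).vec (.al i))
      ((-2 * Real.pi) • (W (H728.rg Q) m).vec (.al j))
      (smul_zero _) (smul_zero _) (smul_zero _) (smul_zero _) (smul_zero _) (smul_zero _)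
  have h2 : (fun c : Bool => if c
      then cval _ m (yT 1) ((-2 * Real.pi) • (W (H728.rg Q) m).vec (.al j))
      else cval _ m (yT 1) ((-2 * Real.pi) • (W (H728.rg Q) m).vec (.al i))) =
      fun b : Bool => (-2 * Real.pi) • dlA (yT 1) (if b then j else i) := by
    funext c
    cases c
    · exact cval_al _ _ _
    · exact cval_al _ _ _
  rw [h1, h2]

theorem sumT_of (X : Ext) (h : Core X) : SumT X := by
  intro T hT _ i j _ Q hQ far
  have key : ∀ m ∈ ((Finset.univ : Finset (∀ k, Fin ((H728.rg Q).n k + 1))).filter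
      fun m => ∀ k, (m k).1 ∈ Q.B k),
      torL (H728.rg Q) m X T far (Q.fr m) i j = vm Q (yT 1) * (2 * Real.pi) ^ 6 *
        DTc (H728.rg Q) T 6 (gB Q) (yT 1) (fun b => (-2 * Real.pi) • dlA (yT 1)
          (if b then j else i)) * piece (H728.rg Q) X far (gB Q) := by
    intro m hm
    rw [Finset.mem_filter] at hm
    refine (torL_def _ _ _ _ _ _ _ _).trans ?_
    exact sq_congr fun s => core_tor X h hT i j hQ far hm.2 s
  rw [Finset.sum_congr rfl key, Finset.sum_const, card_choices, nsmul_eq_mul]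
  unfold cofT
  rw [← card_mul_vm]
  ring

/-! ### Annuli -/

theorem yA_pos {i : Fin 3} {Y : ℝ} (h : 1 < Y) (k : Fin 3) : 0 < yA i 1 Y k := by
  unfold yA
  split_ifs
  · rw [one_mul]; linarith
  · exact one_pos

theorem integral_annulus (F : ℝ → ℝ) :
    ∫ q in Ioi (1 : ℝ) ×ˢ Icc (0 : ℝ) 1, F q.1 = ∫ Y in Ioi (1 : ℝ), F Y := by
  have h1 := setIntegral_prod_mul (μ := (volume : Measure ℝ)) (ν := (volume : Measure ℝ)) F
    (fun _ => (1 : ℝ)) (Ioi (1 : ℝ)) (Icc (0 : ℝ) 1)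
  rw [← Measure.volume_eq_prod] at h1
  simp only [mul_one] at h1
  rw [h1]
  have h2 : ∫ _ in Icc (0 : ℝ) 1, (1 : ℝ) = 1 := by
    rw [setIntegral_const, smul_eq_mul, mul_one, Measure.real, Real.volume_Icc]
    simp
  rw [h2, mul_one]

theorem ann_congr {f : ℝ × ℝ → ℝ} (F : ℝ → ℝ) (h : ∀ q : ℝ × ℝ, 1 < q.1 → f q = F q.1) :
    ∫ q in Ioi (1 : ℝ) ×ˢ Icc (0 : ℝ) 1, f q = ∫ Y in Ioi (1 : ℝ), F Y := by
  rw [← integral_annulus F]
  exact setIntegral_congr_fun (measurableSet_Ioi.prod measurableSet_Icc) fun q hq => h q hq.1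

theorem annL_def (R : Region) (m : ∀ k, Fin (R.n k + 1)) (X : Ext) (T : MT) (far : R.Cm → Bool)
    (B : Finset (W R m).Fr) (i : Fin 3) :
    annL R m X T far B i = ∫ q in Ioi (1 : ℝ) ×ˢ Icc (0 : ℝ) 1,
      ∫ x in domL R m far B (yA i 1 q.1),
        OmL R m X T 7 (Sx R far) B (mk R m (yA i 1 q.1) (aA i q.2) x)
          (fr30 R m ((W R m).vec (.y i)) ((-2 * Real.pi) • (W R m).vec (.al i))) := by
  delta annL
  refine congrArg _ (funext fun q => ?_)
  refine congrArg _ (funext fun x => ?_)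
  refine congrArg _ ?_
  rfl

theorem core_ann (X : Ext) (h : Core X) {T : MT} (hT : SymT T) (i : Fin 3) {Q : H93.RB}
    (hQ : ∑ k, (Q.B k).card = 9) (far : (H728.rg Q).Cm → Bool)
    {m : ∀ k, Fin ((H728.rg Q).n k + 1)} (hm : ∀ k, (m k).1 ∈ Q.B k) {Y : ℝ} (hY : 1 < Y)
    (t : ℝ) :
    ∫ x in domL (H728.rg Q) m far (Q.fr m) (yA i 1 Y),
      OmL (H728.rg Q) m X T 7 (Sx (H728.rg Q) far) (Q.fr m)
        (mk (H728.rg Q) m (yA i 1 Y) (aA i t) x)
        (fr30 (H728.rg Q) m ((W (H728.rg Q) m).vec (.y i))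
          ((-2 * Real.pi) • (W (H728.rg Q) m).vec (.al i))) =
    vm Q (yA i 1 Y) * (2 * Real.pi) ^ 6 *
      DTc (H728.rg Q) T 7 (gB Q) (yA i 1 Y) (fun b =>
        if b then (-2 * Real.pi) • dlA (yA i 1 Y) i else dlY (yA i 1 Y) i) *
      piece (H728.rg Q) X far (gB Q) := by
  have h1 := h T hT 7 Q hQ far m hm (yA i 1 Y) (yA_pos hY) (aA i t)
      ((W (H728.rg Q) m).vec (.y i))
      ((-2 * Real.pi) • (W (H728.rg Q) m).vec (.al i))
      rfl rfl rfl (smul_zero _) (smul_zero _) (smul_zero _)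
  have h2 : (fun c : Bool => if c
      then cval _ m (yA i 1 Y) ((-2 * Real.pi) • (W (H728.rg Q) m).vec (.al i))
      else cval _ m (yA i 1 Y) ((W (H728.rg Q) m).vec (.y i))) =
      fun b : Bool => if b then (-2 * Real.pi) • dlA (yA i 1 Y) i else dlY (yA i 1 Y) i := by
    funext c
    cases c
    · exact cval_y _ _
    · exact cval_al _ _ _
  rw [h1, h2]

theorem sumA_of (X : Ext) (h : Core X) : SumA X := by
  intro T hT _ i Q hQ far
  have key : ∀ m ∈ ((Finset.univ : Finset (∀ k, Fin ((H728.rg Q).n k + 1))).filter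
      fun m => ∀ k, (m k).1 ∈ Q.B k),
      annL (H728.rg Q) m X T far (Q.fr m) i = ∫ Y in Ioi (1 : ℝ),
        vm Q (yA i 1 Y) * (2 * Real.pi) ^ 6 *
          DTc (H728.rg Q) T 7 (gB Q) (yA i 1 Y) (fun b =>
            if b then (-2 * Real.pi) • dlA (yA i 1 Y) i else dlY (yA i 1 Y) i) *
          piece (H728.rg Q) X far (gB Q) := by
    intro m hm
    rw [Finset.mem_filter] at hm
    refine (annL_def _ _ _ _ _ _ _).trans ?_
    exact ann_congr _ fun q hq => core_ann X h hT i hQ far hm.2 hq q.2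
  rw [Finset.sum_congr rfl key, Finset.sum_const, card_choices, nsmul_eq_mul,
    ← integral_const_mul]
  unfold cofA
  rw [← integral_mul_const]
  refine congrArg _ (funext fun Y => ?_)
  rw [← card_mul_vm]
  ring

/-- **Step 6 from the core.** -/
theorem sum_end (h : ∀ X, Core X) : (∀ X, SumT X) ∧ ∀ X, SumA X :=
  ⟨fun X => sumT_of X (h X), fun X => sumA_of X (h X)⟩

end Vale.Agent.P273.H228

end
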