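import Vale.Agent.P273.H577.Core
import Vale.Agent.P273.H228.SumEnd

/-!
P273, LIM, step 6: the statements `SumT`, `SumA`.
-/

noncomputable section

namespace Vale.Agent.P273.H228

open Set Filter MeasureTheory H681 H95 H732 H973 H562 H573
open scoped Topology

theorem core (X : Ext) : Core X := by
  intro T _ n Q h9 far m hm y hy α a b ha1 ha2 ha3 hb1 hb2 hb3
  exact H577.core X T n Q h9 far m hm y hy α a b ha1 ha2 ha3 hb1 hb2 hb3

/-- **Step 6 on the tori.** -/
theorem sumT (X : Ext) : SumT X := sumT_of X (core X)

/-- **Step 6 on the annuli.** -/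
theorem sumA (X : Ext) : SumA X := sumA_of X (core X)

end Vale.Agent.P273.H228

end
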